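import Vale.Agent.P247.H690.HD.Sta

/-!
# P247, stage 2, layer C: HODGE, joints of the assembly

`LG`: the abstract properties of limits of differentials on parametrised pieces of curves.

* `LIMG` (limits satisfy `LG`)
* `THETA` (from `LG` to the form `θ` on `K`)
* `GENX` (a generic combination), assembly: helper690
-/

open scoped ContDiff Topology
open Set MeasureTheory Filter Metric

noncomputable section

namespace Vale.Agent.P247.H690.HD

open Vale.Agent.P247.H74 Vale.Agent.P247.H574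

/-- `Lim` with square integrable `h` -/
structure LimI (F : ℕ → R4 → ℝ) (u : ℂ → R4) (r : ℝ) (h : ℂ → ℂ) : Prop
    extends Lim F u r h where
  int' : ∀ n, IntegrableOn (fun z => ‖dz (F n ∘ u) z - h z‖ ^ 2) (ball 0 r)

/-- `L u r h`: the one-form `h dz` on the disc of radius `r`, parametrised by `u` -/
structure LG (L : (ℂ → R4) → ℝ → (ℂ → ℂ) → Prop) : Prop where
  hol : ∀ u r h, L u r h → DifferentiableOn ℂ h (ball 0 r)
  mono : ∀ u r r' h, L u r h → r' ≤ r → L u r' h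
  uniq : ∀ u r h h', L u r h → L u r h' → ∀ z ∈ ball (0 : ℂ) r, h z = h' z
  comp : ∀ (u u' : ℂ → R4) (r r' : ℝ) (φ h' : ℂ → ℂ), ContDiffOn ℝ ∞ u' (ball 0 r') →
    DifferentiableOn ℂ φ (ball 0 r) → InjOn φ (ball 0 r) →
    (∀ z ∈ ball (0 : ℂ) r, φ z ∈ ball (0 : ℂ) r') → (∀ z ∈ ball (0 : ℂ) r, u z = u' (φ z)) →
    L u' r' h' → L u r (fun z => h' (φ z) * deriv φ z)
  per : ∀ u r h (k : Fin 4 → ℤ), L u r h → L (fun z => tr k (u z)) r h

/-- `LIMG`: limits of differentials satisfy `LG` -/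
def LIMG_statement : Prop := ∀ (D : Data) (S : ICur D) (j : Fin 4) (F : ℕ → R4 → ℝ),
  Mini S j F → LG (LimI F)

/-- `THETA`: gluing. -/
def THETA_statement : Prop := RECENTER_statement → REPAR_statement →
  ∀ (D : Data) (K : Set R4) (L : (ℂ → R4) → ℝ → (ℂ → ℂ) → Prop), LG L →
    (∀ (k : Fin 4 → ℤ) x, x ∈ K → tr k x ∈ K) →
    (∀ x ∈ K, ∀ (N : ℕ) (u : Fin N → ℂ → R4) (ε : ℝ), Brs D K x N u ε → ∀ l, ∃ r > 0, ∃ h,
      L (u l) r h ∧ ∀ z ∈ ball (0 : ℂ) r, z ≠ 0 → h z ≠ 0) →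
    ∃ θ, HolDiff D K θ

end Vale.Agent.P247.H690.HD
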