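import Vale.Agent.P247.H690.HD.Sta

/-!
# P247, HODGE: smooth left inverses, gluing, extension of functions from a branch
-/

open scoped ContDiff Topology Manifold
open Set MeasureTheory Filter Metric

noncomputable section

namespace Vale.Agent.P247.H690.HD

open Vale.Agent.P247.H74 Vale.Agent.P247.H574

/-- a smooth left inverse of an immersion -/
theorem smooth_left {E : Type*} [NormedAddCommGroup E] [NormedSpace ℝ E] [FiniteDimensional ℝ E]
    {g : E → R4} {U : Set E} (hU : IsOpen U) (hg : ContDiffOn ℝ ∞ g U) {z₀ : E} (hz₀ : z₀ ∈ U)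
    (hinj : ∀ v, fderiv ℝ g z₀ v = 0 → v = 0) :
    ∃ (P : R4 → E) (W : Set R4), IsOpen W ∧ ContDiffOn ℝ ∞ P W ∧ ∃ δ > 0, ball z₀ δ ⊆ U ∧
      ∀ z ∈ ball z₀ δ, g z ∈ W ∧ P (g z) = z := by
  have : CompleteSpace E := FiniteDimensional.complete ℝ E
  have hinj' : Function.Injective (fderiv ℝ g z₀) := by
    intro a b hab
    have := hinj (a - b) (by rw [map_sub, hab, sub_self])
    exact sub_eq_zero.1 this
  obtain ⟨S, hS⟩ := (fderiv ℝ g z₀).toLinearMap.exists_leftInverse_of_injective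
    (LinearMap.ker_eq_bot.2 hinj')
  set S' : R4 →L[ℝ] E := LinearMap.toContinuousLinearMap S with hS'
  have hST : ∀ v, S' (fderiv ℝ g z₀ v) = v := fun v => LinearMap.congr_fun hS v
  set f : E → E := fun v => S' (g v) with hf
  have hfs : ContDiffOn ℝ ∞ f U := S'.contDiff.comp_contDiffOn hg
  have hgd : HasFDerivAt g (fderiv ℝ g z₀) z₀ :=
    ((hg.contDiffAt (hU.mem_nhds hz₀)).differentiableAt (by simp)).hasFDerivAt
  have hfd : HasFDerivAt f ((ContinuousLinearEquiv.refl ℝ E : E ≃L[ℝ] E) : E →L[ℝ] E) z₀ := by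
    have h1 := S'.hasFDerivAt.comp z₀ hgd
    have h2 : S'.comp (fderiv ℝ g z₀) = ((ContinuousLinearEquiv.refl ℝ E : E ≃L[ℝ] E) : E →L[ℝ] E) :=
      ContinuousLinearMap.ext fun v => hST v
    rw [h2] at h1
    exact h1
  have hfa : ContDiffAt ℝ ∞ f z₀ := hfs.contDiffAt (hU.mem_nhds hz₀)
  set e : OpenPartialHomeomorph E E := hfa.toOpenPartialHomeomorph f hfd (by simp) with he
  have hecoe : (e : E → E) = f := hfa.toOpenPartialHomeomorph_coe hfd (by simp)
  have hez : z₀ ∈ e.source := hfa.mem_toOpenPartialHomeomorph_source hfd (by simp)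
  -- invertible derivatives
  have hunit : ∀ᶠ z in 𝓝 z₀, IsUnit (fderiv ℝ f z) := by
    have hc : ContinuousAt (fderiv ℝ f) z₀ :=
      (hfs.continuousOn_fderiv_of_isOpen hU (by simp)).continuousAt (hU.mem_nhds hz₀)
    have h1 : IsUnit (fderiv ℝ f z₀) := by
      rw [hfd.fderiv]
      exact isUnit_one
    exact hc.eventually (Units.isOpen.mem_nhds h1)
  have hU' : ∀ᶠ z in 𝓝 z₀, z ∈ U := hU.mem_nhds hz₀
  have hes : ∀ᶠ z in 𝓝 z₀, z ∈ e.source := e.open_source.mem_nhds hez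
  obtain ⟨δ, hδ, hball⟩ := Metric.eventually_nhds_iff_ball.1 (hunit.and (hU'.and hes))
  have hopen : IsOpen (e '' ball z₀ δ) :=
    e.isOpen_image_of_subset_source isOpen_ball fun z hz => (hball z hz).2.2
  refine ⟨fun y => e.symm (S' y), S' ⁻¹' (e '' ball z₀ δ), hopen.preimage S'.continuous, ?_,
    δ, hδ, fun z hz => (hball z hz).2.1, fun z hz => ⟨?_, ?_⟩⟩
  · intro y hy
    obtain ⟨z, hz, hzy⟩ := hy
    have h1 : e.symm (S' y) = z := by
      rw [← hzy]
      exact e.left_inv (hball z hz).2.2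
    have h2 : S' y ∈ e.target := by
      rw [← hzy]
      exact e.map_source (hball z hz).2.2
    obtain ⟨w, hw⟩ := (hball z hz).1
    set A : E ≃L[ℝ] E := ContinuousLinearEquiv.unitsEquiv ℝ E w with hA
    have hAf : (A : E →L[ℝ] E) = fderiv ℝ f z := by
      rw [← hw]
      rfl
    have hfz : ContDiffAt ℝ ∞ f z := hfs.contDiffAt (hU.mem_nhds (hball z hz).2.1)
    have h3 : ContDiffAt ℝ ∞ e.symm (S' y) := by
      refine e.contDiffAt_symm (f₀' := A) h2 ?_ ?_
      · rw [h1, hecoe, hAf]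
        exact (hfz.differentiableAt (by simp)).hasFDerivAt
      · rw [h1, hecoe]
        exact hfz
    exact (ContDiffAt.comp (g := e.symm) (f := S') y h3 S'.contDiff.contDiffAt).contDiffWithinAt
  · refine ⟨z, hz, ?_⟩
    rw [hecoe]
  · have h1 : S' (g z) = e z := by rw [hecoe]
    show e.symm (S' (g z)) = z
    rw [h1]
    exact e.left_inv (hball z hz).2.2

/-- smooth functions from local ones, with convex conditions -/
theorem glue {F : Type*} [NormedAddCommGroup F] [NormedSpace ℝ F] (t : R4 → Set F)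
    (ht : ∀ x, Convex ℝ (t x))
    (h : ∀ x, ∃ U ∈ 𝓝 x, ∃ g : R4 → F, ContDiffOn ℝ ∞ g U ∧ ∀ y ∈ U, g y ∈ t y) :
    ∃ g : R4 → F, ContDiff ℝ ∞ g ∧ ∀ x, g x ∈ t x := by
  obtain ⟨g, hg⟩ := exists_contMDiffMap_forall_mem_convex_of_local (n := ⊤) 𝓘(ℝ, R4) ht
    (fun x => by
      obtain ⟨U, hU, g, h1, h2⟩ := h x
      exact ⟨U, hU, g, h1.contMDiffOn, h2⟩)
  exact ⟨g, g.contMDiff.contDiff, hg⟩

/-- the derivative of an immersed `J`-disc is injective -/
theorem fderiv_inj {D : Data} {u : ℂ → R4} (hu : JDisc D u) {z : ℂ} (hz : z ∈ ball (0 : ℂ) 2)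
    (h1 : fderiv ℝ u z 1 ≠ 0) {ζ : ℂ} (h0 : fderiv ℝ u z ζ = 0) : ζ = 0 := by
  have h2 : fderiv ℝ u z ζ = ζ.re • fderiv ℝ u z 1 + ζ.im • D.J (u z) (fderiv ℝ u z 1) := by
    rw [← hu.hol z hz, ← map_smul, ← map_smul, ← map_add]
    congr 1
    apply Complex.ext <;> simp
  set a := fderiv ℝ u z 1 with ha
  rw [h2] at h0
  have h3 : ζ.re • D.J (u z) a - ζ.im • a = 0 := by
    have := congrArg (D.J (u z)) h0
    rw [map_add, map_smul, map_smul, D.J_sq, map_zero] at this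
    rw [← this]
    module
  have h4 : (ζ.re ^ 2 + ζ.im ^ 2) • a = 0 := by
    have h5 : (ζ.re ^ 2 + ζ.im ^ 2) • a = ζ.re • (ζ.re • a + ζ.im • D.J (u z) a) -
        ζ.im • (ζ.re • D.J (u z) a - ζ.im • a) := by module
    rw [h5, h0, h3]
    simp
  rcases smul_eq_zero.1 h4 with h5 | h5
  · apply Complex.ext
    · simp only [Complex.zero_re]; nlinarith [sq_nonneg ζ.re, sq_nonneg ζ.im]
    · simp only [Complex.zero_im]; nlinarith [sq_nonneg ζ.re, sq_nonneg ζ.im]
  · exact absurd h5 h1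

/-- extension of a function on one branch, by zero on the other branches -/
theorem exists_ext {D : Data} {K : Set R4} {x : R4} {N : ℕ} {u : Fin N → ℂ → R4} {ε : ℝ}
    (hB : Brs D K x N u ε) (l : Fin N) {ψ : ℂ → ℝ} (hψ : ContDiff ℝ ∞ ψ)
    (hs : tsupport ψ ⊆ ball 0 1 \ {0}) (hε : ∀ z ∈ tsupport ψ, u l z ∈ ball x ε) :
    ∃ Ψ : R4 → ℝ, ContDiff ℝ ∞ Ψ ∧ HasCompactSupport Ψ ∧ tsupport Ψ ⊆ ball x ε ∧
      (∀ z ∈ ball (0 : ℂ) 1, Ψ (u l z) = ψ z) ∧
      ∀ m ≠ l, ∀ z ∈ ball (0 : ℂ) 1, Ψ (u m z) = 0 := by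
  have h12 : closedBall (0 : ℂ) 1 ⊆ ball 0 2 := closedBall_subset_ball (by norm_num)
  have hcomp : IsCompact (tsupport ψ) :=
    (isCompact_closedBall (0 : ℂ) 1).of_isClosed_subset (isClosed_tsupport ψ)
      fun z hz => ball_subset_closedBall (hs hz).1
  have hcont : ∀ m, ContinuousOn (u m) (ball 0 2) := fun m => (hB.disc m).smooth.continuousOn
  have hKψ : IsCompact (u l '' tsupport ψ) :=
    hcomp.image_of_continuousOn ((hcont l).mono fun z hz => h12 (ball_subset_closedBall (hs hz).1))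
  obtain ⟨ε', hε', hKε⟩ := exists_pos_lt_subset_ball hB.posε hKψ.isClosed
    (show u l '' tsupport ψ ⊆ ball x ε by rintro _ ⟨z, hz, rfl⟩; exact hε z hz)
  -- the convex condition
  set t : R4 → Set ℝ := fun y => {v | (∀ z ∈ closedBall (0 : ℂ) 1, u l z = y → v = ψ z) ∧
    (∀ m ≠ l, ∀ z ∈ closedBall (0 : ℂ) 1, u m z = y → v = 0) ∧ (y ∉ closedBall x ε' → v = 0)}
    with ht
  obtain ⟨Ψ, hΨ, hΨt⟩ := glue t
    (fun y v hv w hw a b ha hb hab => by
      refine ⟨fun z hz hzy => ?_, fun m hm z hz hzy => ?_, fun hy => ?_⟩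
      · rw [hv.1 z hz hzy, hw.1 z hz hzy, ← add_smul, hab, one_smul]
      · rw [hv.2.1 m hm z hz hzy, hw.2.1 m hm z hz hzy, smul_zero, smul_zero, add_zero]
      · rw [hv.2.2 hy, hw.2.2 hy, smul_zero, smul_zero, add_zero])
    (fun y₀ => by
      by_cases hy₀ : y₀ ∈ u l '' tsupport ψ
      · obtain ⟨z₀, hz₀, rfl⟩ := hy₀
        have hz₀1 : z₀ ∈ ball (0 : ℂ) 1 := (hs hz₀).1
        have hz₀0 : z₀ ≠ 0 := (hs hz₀).2
        have hz₀2 : z₀ ∈ ball (0 : ℂ) 2 := h12 (ball_subset_closedBall hz₀1)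
        obtain ⟨P, W, hW, hPW, δ, hδ, -, hP⟩ := smooth_left isOpen_ball (hB.disc l).smooth hz₀2
          (fun v hv => fderiv_inj (hB.disc l) hz₀2 (hB.imm l z₀ hz₀2 hz₀0) hv)
        set C₁ : Set R4 := u l '' (closedBall (0 : ℂ) 1 \ ball z₀ δ) with hC₁
        set C₂ : Set R4 := ⋃ m ∈ {m | m ≠ l}, u m '' closedBall (0 : ℂ) 1 with hC₂
        have hC₁c : IsClosed C₁ := (((isCompact_closedBall (0 : ℂ) 1).diff
          isOpen_ball).image_of_continuousOn ((hcont l).mono fun z hz => h12 hz.1)).isClosed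
        have hC₂c : IsClosed C₂ := (Set.toFinite _).isClosed_biUnion fun m _ =>
          ((isCompact_closedBall (0 : ℂ) 1).image_of_continuousOn ((hcont m).mono h12)).isClosed
        have h1 : u l z₀ ∉ C₁ := by
          rintro ⟨z, hz, hzz⟩
          rcases hB.inj l l z (h12 hz.1) z₀ hz₀2 hzz with h | h
          · rw [h.2] at hz
            exact hz.2 (mem_ball_self hδ)
          · exact hz₀0 h.2
        have h2 : u l z₀ ∉ C₂ := by
          intro h
          simp only [hC₂, mem_iUnion, mem_ofPred_eq] at h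
          obtain ⟨m, hm, z, hz, hzz⟩ := h
          rcases hB.inj m l z (h12 hz) z₀ hz₀2 hzz with h | h
          · exact hm h.1
          · exact hz₀0 h.2
        refine ⟨W ∩ ball x ε' ∩ (C₁ᶜ ∩ C₂ᶜ), ?_, fun y => ψ (P y), ?_, ?_⟩
        · refine Filter.inter_mem (Filter.inter_mem (hW.mem_nhds (hP z₀ (mem_ball_self hδ)).1)
            (isOpen_ball.mem_nhds (hKε (mem_image_of_mem _ hz₀)))) (Filter.inter_mem
            (hC₁c.isOpen_compl.mem_nhds h1) (hC₂c.isOpen_compl.mem_nhds h2))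
        · exact hψ.comp_contDiffOn (hPW.mono fun y hy => hy.1.1)
        · rintro y ⟨⟨hyW, hyb⟩, hy1, hy2⟩
          refine ⟨fun z hz hzy => ?_, fun m hm z hz hzy => ?_, fun hy => ?_⟩
          · have h3 : z ∈ ball z₀ δ := by
              by_contra hzn
              exact hy1 ⟨z, ⟨hz, hzn⟩, hzy⟩
            show ψ (P y) = ψ z
            rw [← hzy, (hP z h3).2]
          · exfalso
            apply hy2
            simp only [hC₂, mem_iUnion, mem_ofPred_eq]
            exact ⟨m, hm, z, hz, hzy⟩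
          · exact absurd (ball_subset_closedBall hyb) hy
      · refine ⟨(u l '' tsupport ψ)ᶜ, hKψ.isClosed.isOpen_compl.mem_nhds hy₀, fun _ => 0,
          contDiffOn_const, fun y hy => ⟨fun z hz hzy => ?_, fun _ _ _ _ _ => rfl, fun _ => rfl⟩⟩
        have h3 : z ∉ tsupport ψ := fun h => hy ⟨z, h, hzy⟩
        exact (image_eq_zero_of_notMem_tsupport h3).symm)
  have hsub : tsupport Ψ ⊆ closedBall x ε' := by
    refine closure_minimal (fun y hy => ?_) isClosed_closedBall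
    by_contra hyn
    exact hy ((hΨt y).2.2 hyn)
  refine ⟨Ψ, hΨ, (isCompact_closedBall x ε').of_isClosed_subset (isClosed_tsupport Ψ) hsub,
    hsub.trans (closedBall_subset_ball hε'.2), fun z hz => (hΨt _).1 z (ball_subset_closedBall hz)
      rfl, fun m hm z hz => (hΨt _).2.1 m hm z (ball_subset_closedBall hz) rfl⟩

end Vale.Agent.P247.H690.HD
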