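import Vale.Agent.P247.H690.HD.Min
import Vale.Agent.P247.H690.HD.Left

/-!
# P247, HODGE: the limits on the discs
-/

open scoped ContDiff Topology
open Set MeasureTheory Filter Metric

noncomputable section

namespace Vale.Agent.P247.H690.HD

open Vale.Agent.P247.H74 Vale.Agent.P247.H574

/-! ## `L²` -/

theorem l2_norm_sq {μ : Measure ℂ} {h : ℂ → ℂ} (hh : MemLp h 2 μ) :
    ‖hh.toLp h‖ ^ 2 = ∫ z, ‖h z‖ ^ 2 ∂μ := by
  have h1 : inner ℂ (hh.toLp h) (hh.toLp h) = ((‖hh.toLp h‖ : ℂ)) ^ 2 :=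
    inner_self_eq_norm_sq_to_K _
  rw [L2.inner_def] at h1
  have h2 : ∫ z, inner ℂ (hh.toLp h z) (hh.toLp h z) ∂μ = ((∫ z, ‖h z‖ ^ 2 ∂μ : ℝ) : ℂ) := by
    rw [show ((∫ z, ‖h z‖ ^ 2 ∂μ : ℝ) : ℂ) = ∫ z, ((‖h z‖ ^ 2 : ℝ) : ℂ) ∂μ from
      integral_complex_ofReal.symm]
    refine integral_congr_ae ?_
    filter_upwards [hh.coeFn_toLp] with z hz
    rw [hz]
    have := inner_self_eq_norm_sq_to_K (𝕜 := ℂ) (h z)
    rw [this]
    push_cast
    rfl
  rw [h2] at h1
  exact_mod_cast h1.symm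

theorem l2_limit {μ : Measure ℂ} {p : ℕ → ℂ → ℂ} (hp : ∀ n, MemLp (p n) 2 μ)
    (hc : ∀ η > 0, ∃ n₀, ∀ n ≥ n₀, ∀ m ≥ n₀, ∫ z, ‖p n z - p m z‖ ^ 2 ∂μ ≤ η) :
    ∃ g, MemLp g 2 μ ∧ Tendsto (fun n => ∫ z, ‖p n z - g z‖ ^ 2 ∂μ) atTop (𝓝 0) ∧
      ∀ Φ, MemLp Φ 2 μ → Tendsto (fun n => ∫ z, p n z * Φ z ∂μ) atTop (𝓝 (∫ z, g z * Φ z ∂μ)) := by
  set f : ℕ → Lp ℂ 2 μ := fun n => (hp n).toLp (p n) with hf
  have hdist : ∀ n m, ‖f n - f m‖ ^ 2 = ∫ z, ‖p n z - p m z‖ ^ 2 ∂μ := by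
    intro n m
    have h1 : f n - f m = ((hp n).sub (hp m)).toLp (p n - p m) := (MemLp.toLp_sub _ _).symm
    rw [h1, l2_norm_sq]
    rfl
  have hcau : CauchySeq f := by
    rw [Metric.cauchySeq_iff]
    intro ε hε
    obtain ⟨n₀, hn₀⟩ := hc (ε ^ 2 / 4) (by positivity)
    refine ⟨n₀, fun n hn m hm => ?_⟩
    rw [dist_eq_norm]
    have h1 := hn₀ n hn m hm
    rw [← hdist] at h1
    have h2 : ‖f n - f m‖ ≤ ε / 2 := by
      apply le_of_sq_le_sq _ (by positivity)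
      nlinarith
    linarith
  obtain ⟨F, hF⟩ := cauchySeq_tendsto_of_complete hcau
  have hFm : MemLp F 2 μ := Lp.memLp F
  have hFF : hFm.toLp F = F := Lp.toLp_coeFn F hFm
  refine ⟨F, hFm, ?_, ?_⟩
  · have h1 : Tendsto (fun n => ‖f n - F‖ ^ 2) atTop (𝓝 0) := by
      have h2 := (tendsto_iff_norm_sub_tendsto_zero.1 hF).pow 2
      simpa using h2
    refine h1.congr fun n => ?_
    have h3 : f n - F = ((hp n).sub hFm).toLp (p n - (⇑F : ℂ → ℂ)) := by
      rw [MemLp.toLp_sub (hp n) hFm, hFF]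
    rw [h3, l2_norm_sq]
    rfl
  · intro Φ hΦ
    have hΦ' : MemLp (fun z => (starRingEnd ℂ) (Φ z)) 2 μ := hΦ.star
    have h1 : ∀ {q : ℂ → ℂ} (hq : MemLp q 2 μ),
        inner ℂ (hΦ'.toLp _) (hq.toLp q) = ∫ z, q z * Φ z ∂μ := by
      intro q hq
      rw [L2.inner_def]
      refine integral_congr_ae ?_
      filter_upwards [hΦ'.coeFn_toLp, hq.coeFn_toLp] with z h2 h3
      rw [h2, h3, RCLike.inner_apply, Complex.conj_conj]
    have h2 : Tendsto (fun n => inner ℂ (hΦ'.toLp _) (f n)) atTop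
        (𝓝 (inner ℂ (hΦ'.toLp _) F)) := Filter.Tendsto.inner tendsto_const_nhds hF
    rw [← hFF, h1 hFm] at h2
    refine h2.congr fun n => ?_
    rw [hf, h1 (hp n)]

/-! ## Discs -/

section disc

variable {D : Data} {u : ℂ → R4}

theorem sub12 : closedBall (0 : ℂ) 1 ⊆ ball 0 2 := closedBall_subset_ball (by norm_num)

theorem fderiv_disc (hu : JDisc D u) {F : R4 → ℝ} (hF : ContDiff ℝ ∞ F) {z : ℂ}
    (hz : z ∈ ball (0 : ℂ) 2) (ζ : ℂ) :
    fderiv ℝ (F ∘ u) z ζ = fderiv ℝ F (u z) (fderiv ℝ u z ζ) := by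
  have h1 : DifferentiableAt ℝ u z :=
    (hu.smooth.contDiffAt (isOpen_ball.mem_nhds hz)).differentiableAt (by simp)
  rw [fderiv_comp z (hF.differentiable (by simp) _) h1]
  rfl

theorem brI_bf (hu : JDisc D u) {F Ψ : R4 → ℝ} (hF : ContDiff ℝ ∞ F) (hΨ : ContDiff ℝ ∞ Ψ) :
    brI u (fun x => bf D x (fderiv ℝ F x) (fderiv ℝ Ψ x)) = ∫ z in ball (0 : ℂ) 1,
      (fderiv ℝ (F ∘ u) z 1 * fderiv ℝ (Ψ ∘ u) z 1 +
        fderiv ℝ (F ∘ u) z Complex.I * fderiv ℝ (Ψ ∘ u) z Complex.I) := by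
  unfold brI
  refine setIntegral_congr_fun measurableSet_ball fun z hz => ?_
  have hz2 : z ∈ ball (0 : ℂ) 2 := sub12 (ball_subset_closedBall hz)
  simp only
  rw [fderiv_disc hu hF hz2, fderiv_disc hu hΨ hz2, fderiv_disc hu hF hz2, fderiv_disc hu hΨ hz2,
    hu.hol z hz2, bf_J]

theorem brI_wg (hu : JDisc D u) {F Ψ : R4 → ℝ} (hF : ContDiff ℝ ∞ F) (hΨ : ContDiff ℝ ∞ Ψ) :
    brI u (fun x => H710.wg (fderiv ℝ F x) (fderiv ℝ Ψ x)) = ∫ z in ball (0 : ℂ) 1,
      (fderiv ℝ (F ∘ u) z 1 * fderiv ℝ (Ψ ∘ u) z Complex.I -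
        fderiv ℝ (Ψ ∘ u) z 1 * fderiv ℝ (F ∘ u) z Complex.I) := by
  unfold brI
  refine setIntegral_congr_fun measurableSet_ball fun z hz => ?_
  have hz2 : z ∈ ball (0 : ℂ) 2 := sub12 (ball_subset_closedBall hz)
  simp only
  rw [fderiv_disc hu hF hz2, fderiv_disc hu hΨ hz2, fderiv_disc hu hF hz2, fderiv_disc hu hΨ hz2,
    H710.wg_apply]

theorem contDiffOn_comp (hu : JDisc D u) {F : R4 → ℝ} (hF : ContDiff ℝ ∞ F) :
    ContDiffOn ℝ ∞ (F ∘ u) (ball 0 2) := hF.comp_contDiffOn hu.smooth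

theorem dz_continuousOn (hu : JDisc D u) {F : R4 → ℝ} (hF : ContDiff ℝ ∞ F) :
    ContinuousOn (dz (F ∘ u)) (ball 0 2) := by
  have h1 : ContinuousOn (fderiv ℝ (F ∘ u)) (ball 0 2) :=
    (contDiffOn_comp hu hF).continuousOn_fderiv_of_isOpen isOpen_ball (by simp)
  unfold dz
  have h2 : ContinuousOn (fun z => fderiv ℝ (F ∘ u) z 1) (ball 0 2) := h1.clm_apply continuousOn_const
  have h3 : ContinuousOn (fun z => fderiv ℝ (F ∘ u) z Complex.I) (ball 0 2) :=
    h1.clm_apply continuousOn_const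
  exact ((Complex.continuous_ofReal.comp_continuousOn h2).sub
    (continuousOn_const.mul (Complex.continuous_ofReal.comp_continuousOn h3))).div_const 2

theorem memLp_of_cont {f : ℂ → ℂ} (hf : ContinuousOn f (ball 0 2)) {r : ℝ} (hr : r ≤ 1) :
    MemLp f 2 (volume.restrict (ball 0 r)) := by
  have hc : IsCompact (closedBall (0 : ℂ) 1) := isCompact_closedBall _ _
  have hf1 : ContinuousOn f (closedBall 0 1) := hf.mono sub12
  obtain ⟨C, hC⟩ := hc.exists_bound_of_continuousOn hf1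
  have : IsFiniteMeasure (volume.restrict (closedBall (0 : ℂ) 1)) :=
    ⟨by rw [Measure.restrict_apply_univ]; exact measure_closedBall_lt_top⟩
  have h1 : MemLp f 2 (volume.restrict (closedBall (0 : ℂ) 1)) := by
    refine MemLp.of_bound (hf1.aestronglyMeasurable measurableSet_closedBall) C ?_
    filter_upwards [ae_restrict_mem measurableSet_closedBall] with z hz using hC z hz
  exact h1.mono_measure (Measure.restrict_mono
    ((ball_subset_ball hr).trans ball_subset_closedBall) le_rfl)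

theorem norm_dz_sub (hu : JDisc D u) {F G : R4 → ℝ} (hF : ContDiff ℝ ∞ F) (hG : ContDiff ℝ ∞ G)
    {z : ℂ} (hz : z ∈ ball (0 : ℂ) 2) :
    ‖dz (F ∘ u) z - dz (G ∘ u) z‖ ^ 2 = (1 / 4) *
      bf D (u z) (fderiv ℝ F (u z) - fderiv ℝ G (u z)) (fderiv ℝ F (u z) - fderiv ℝ G (u z))
        (fderiv ℝ u z 1) (fderiv ℝ u z Complex.I) := by
  rw [hu.hol z hz, bf_J, ← hu.hol z hz]
  unfold dz
  rw [fderiv_disc hu hF hz, fderiv_disc hu hF hz, fderiv_disc hu hG hz, fderiv_disc hu hG hz]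
  show _ = (1 / 4 : ℝ) * ((fderiv ℝ F (u z) (fderiv ℝ u z 1) - fderiv ℝ G (u z) (fderiv ℝ u z 1)) *
    (fderiv ℝ F (u z) (fderiv ℝ u z 1) - fderiv ℝ G (u z) (fderiv ℝ u z 1)) +
    (fderiv ℝ F (u z) (fderiv ℝ u z Complex.I) - fderiv ℝ G (u z) (fderiv ℝ u z Complex.I)) *
    (fderiv ℝ F (u z) (fderiv ℝ u z Complex.I) - fderiv ℝ G (u z) (fderiv ℝ u z Complex.I)))
  set a := fderiv ℝ F (u z) (fderiv ℝ u z 1)
  set b := fderiv ℝ F (u z) (fderiv ℝ u z Complex.I)
  set c := fderiv ℝ G (u z) (fderiv ℝ u z 1)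
  set d := fderiv ℝ G (u z) (fderiv ℝ u z Complex.I)
  have h1 : ((a : ℂ) - Complex.I * (b : ℂ)) / 2 - ((c : ℂ) - Complex.I * (d : ℂ)) / 2 =
      (((a - c) / 2 : ℝ) : ℂ) + ((-(b - d) / 2 : ℝ) : ℂ) * Complex.I := by
    push_cast
    ring
  rw [h1, ← Complex.normSq_eq_norm_sq, Complex.normSq_add_mul_I]
  ring

end disc

/-- a continuous cut-off -/
theorem exists_cut (x : R4) {ε : ℝ} (hε : 0 < ε) : ∃ χ : R4 → ℝ, Continuous χ ∧
    HasCompactSupport χ ∧ tsupport χ ⊆ ball x ε ∧ (∀ y, 0 ≤ χ y) ∧ ∀ y ∈ ball x (ε / 2), χ y = 1 := by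
  set χ : R4 → ℝ := fun y => max 0 (min 1 (3 - 4 * dist y x / ε)) with hχ
  have hc : Continuous χ := by fun_prop
  have hsub : tsupport χ ⊆ closedBall x (3 * ε / 4) := by
    refine closure_minimal (fun y hy => ?_) isClosed_closedBall
    by_contra hyn
    apply hy
    rw [mem_closedBall, not_le] at hyn
    have h1 : 3 - 4 * dist y x / ε ≤ 0 := by
      rw [sub_nonpos, le_div_iff₀ hε]
      linarith
    show max 0 (min 1 (3 - 4 * dist y x / ε)) = 0
    exact max_eq_left ((min_le_right _ _).trans h1)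
  refine ⟨χ, hc, (isCompact_closedBall x _).of_isClosed_subset (isClosed_tsupport χ) hsub,
    hsub.trans (closedBall_subset_ball (by linarith)), fun y => le_max_left _ _, fun y hy => ?_⟩
  rw [mem_ball] at hy
  have h1 : 1 ≤ 3 - 4 * dist y x / ε := by
    have : 4 * dist y x / ε ≤ 2 := by
      rw [div_le_iff₀ hε]
      linarith
    linarith
  show max 0 (min 1 (3 - 4 * dist y x / ε)) = 1
  rw [min_eq_left h1]
  exact max_eq_right zero_le_one

section

variable {D : Data} {S : ICur D} {x : R4} {N : ℕ} {u : Fin N → ℂ → R4} {k : Fin N → ℕ} {ε : ℝ}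

theorem cau_disc (h : LS1 S x N u k ε) {j : Fin 4} {F : ℕ → R4 → ℝ} (hF : Mini S j F) (l : Fin N)
    {r : ℝ} (hr1 : r ≤ 1) (hr : ∀ z ∈ ball (0 : ℂ) r, u l z ∈ ball x (ε / 2)) :
    ∀ η > 0, ∃ n₀, ∀ n ≥ n₀, ∀ m ≥ n₀, ∫ z in ball (0 : ℂ) r,
      ‖dz (F n ∘ u l) z - dz (F m ∘ u l) z‖ ^ 2 ≤ η := by
  intro η hη
  obtain ⟨χ, hχc, hχs, hχt, hχ0, hχ1⟩ := exists_cut x h.brs.posε
  obtain ⟨n₀, hn₀⟩ := hF.cau χ hχc hχs hχ0 η hη
  refine ⟨n₀, fun n hn m hm => ?_⟩
  refine le_trans ?_ (hn₀ n hn m hm)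
  have hcf : ∀ n, Continuous (fderiv ℝ (F n)) := fun n => (hF.smooth n).continuous_fderiv (by simp)
  set a : R4 → R4 →L[ℝ] ℝ := fun x => fderiv ℝ (F n) x - fderiv ℝ (F m) x with ha
  have hac : Continuous a := (hcf n).sub (hcf m)
  have hcfa : CF (fun x => χ x • qf D x (a x)) := bf_cf hχc hχs hac hac
  have htsub : tsupport (fun x => χ x • qf D x (a x)) ⊆ ball x ε := by
    refine (closure_mono fun y hy => ?_).trans hχt
    intro hy0
    apply hy
    ext v w
    show χ y * _ = 0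
    rw [hy0, zero_mul]
  rw [h.val _ hcfa htsub]
  -- the terms
  have hterm : ∀ m', brI (u m') (fun x => χ x • qf D x (a x)) = ∫ z in ball (0 : ℂ) 1,
      χ (u m' z) * bf D (u m' z) (a (u m' z)) (a (u m' z)) (fderiv ℝ (u m') z 1)
        (fderiv ℝ (u m') z Complex.I) := fun m' => rfl
  have hpos : ∀ m', ∀ z ∈ ball (0 : ℂ) 2, 0 ≤ bf D (u m' z) (a (u m' z)) (a (u m' z))
      (fderiv ℝ (u m') z 1) (fderiv ℝ (u m') z Complex.I) := by
    intro m' z hz
    rw [(h.brs.disc m').hol z hz, bf_J]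
    exact add_nonneg (mul_self_nonneg _) (mul_self_nonneg _)
  have hnn : ∀ m', 0 ≤ brI (u m') (fun x => χ x • qf D x (a x)) := by
    intro m'
    rw [hterm]
    refine setIntegral_nonneg measurableSet_ball fun z hz => ?_
    exact mul_nonneg (hχ0 _) (hpos m' z (sub12 (ball_subset_closedBall hz)))
  have h1 : brI (u l) (fun x => χ x • qf D x (a x)) ≤
      ∑ m', (k m' : ℝ) * brI (u m') (fun x => χ x • qf D x (a x)) := by
    have h2 : brI (u l) (fun x => χ x • qf D x (a x)) ≤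
        (k l : ℝ) * brI (u l) (fun x => χ x • qf D x (a x)) := by
      have : (1 : ℝ) ≤ k l := by exact_mod_cast h.one l
      nlinarith [hnn l]
    refine h2.trans (Finset.single_le_sum (f := fun m' => (k m' : ℝ) *
      brI (u m') (fun x => χ x • qf D x (a x))) (fun m' _ => ?_) (Finset.mem_univ l))
    exact mul_nonneg (Nat.cast_nonneg _) (hnn m')
  refine le_trans ?_ h1
  rw [hterm]
  have hdu : ContinuousOn (fderiv ℝ (u l)) (ball 0 2) :=
    (h.brs.disc l).smooth.continuousOn_fderiv_of_isOpen isOpen_ball (by simp)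
  have huc : ContinuousOn (u l) (ball 0 2) := (h.brs.disc l).smooth.continuousOn
  have hcont : ContinuousOn (fun z => χ (u l z) * bf D (u l z) (a (u l z)) (a (u l z))
      (fderiv ℝ (u l) z 1) (fderiv ℝ (u l) z Complex.I)) (closedBall 0 1) := by
    refine ContinuousOn.mono ?_ sub12
    have e1 : ContinuousOn (fun z => bf D (u l z) (a (u l z)) (a (u l z))) (ball 0 2) :=
      (bf_continuous D hac hac).comp_continuousOn huc
    exact (hχc.comp_continuousOn huc).mul ((e1.clm_apply (hdu.clm_apply continuousOn_const)).clm_apply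
      (hdu.clm_apply continuousOn_const))
  have hint : IntegrableOn (fun z => χ (u l z) * bf D (u l z) (a (u l z)) (a (u l z))
      (fderiv ℝ (u l) z 1) (fderiv ℝ (u l) z Complex.I)) (ball 0 1) :=
    (hcont.integrableOn_compact (isCompact_closedBall _ _)).mono_set ball_subset_closedBall
  calc ∫ z in ball (0 : ℂ) r, ‖dz (F n ∘ u l) z - dz (F m ∘ u l) z‖ ^ 2
      ≤ ∫ z in ball (0 : ℂ) r, χ (u l z) * bf D (u l z) (a (u l z)) (a (u l z))
        (fderiv ℝ (u l) z 1) (fderiv ℝ (u l) z Complex.I) := by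
        refine setIntegral_mono_on ?_ (hint.mono_set (ball_subset_ball hr1)) measurableSet_ball ?_
        · have h3 := (memLp_of_cont (dz_continuousOn (h.brs.disc l) (hF.smooth n)) hr1).sub
            (memLp_of_cont (dz_continuousOn (h.brs.disc l) (hF.smooth m)) hr1)
          exact h3.integrable_norm_pow (by norm_num)
        · intro z hz
          have hz2 : z ∈ ball (0 : ℂ) 2 := ball_subset_ball (by linarith) hz
          rw [norm_dz_sub (h.brs.disc l) (hF.smooth n) (hF.smooth m) hz2, hχ1 _ (hr z hz), one_mul]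
          have := hpos l z hz2
          simp only [ha] at this ⊢
          linarith
    _ ≤ _ := by
        refine setIntegral_mono_set hint ?_ (ball_subset_ball hr1).eventuallyLE
        filter_upwards [ae_restrict_mem measurableSet_ball] with z hz
        exact mul_nonneg (hχ0 _) (hpos l z (sub12 (ball_subset_closedBall hz)))

/-- the Euler-Lagrange equation and closedness on a branch, for real test functions -/
theorem el_real (h : LS1 S x N u k ε) {j : Fin 4} {F : ℕ → R4 → ℝ} (hF : Mini S j F)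
    (hE : EL S F) (l : Fin N) {ψ : ℂ → ℝ} (hψ : ContDiff ℝ ∞ ψ)
    (hs : tsupport ψ ⊆ ball 0 1 \ {0}) (hε : ∀ z ∈ tsupport ψ, u l z ∈ ball x ε) :
    Tendsto (fun n => ∫ z in ball (0 : ℂ) 1, (fderiv ℝ (F n ∘ u l) z 1 * fderiv ℝ ψ z 1 +
      fderiv ℝ (F n ∘ u l) z Complex.I * fderiv ℝ ψ z Complex.I)) atTop (𝓝 0) ∧
    ∀ n, ∫ z in ball (0 : ℂ) 1, (fderiv ℝ (F n ∘ u l) z 1 * fderiv ℝ ψ z Complex.I -
      fderiv ℝ ψ z 1 * fderiv ℝ (F n ∘ u l) z Complex.I) = 0 := by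
  obtain ⟨Ψ, hΨ, hΨs, hΨt, hΨl, hΨm⟩ := exists_ext h.brs l hψ hs hε
  have hk : (0 : ℝ) < k l := by exact_mod_cast h.one l
  have hdl : ∀ z ∈ ball (0 : ℂ) 1, fderiv ℝ (Ψ ∘ u l) z = fderiv ℝ ψ z := by
    intro z hz
    apply Filter.EventuallyEq.fderiv_eq
    filter_upwards [isOpen_ball.mem_nhds hz] with w hw using hΨl w hw
  have hdm : ∀ m ≠ l, ∀ z ∈ ball (0 : ℂ) 1, fderiv ℝ (Ψ ∘ u m) z = 0 := by
    intro m hm z hz
    have h1 : (Ψ ∘ u m) =ᶠ[𝓝 z] fun _ => (0 : ℝ) := by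
      filter_upwards [isOpen_ball.mem_nhds hz] with w hw using hΨm m hm w hw
    rw [h1.fderiv_eq]
    exact fderiv_const_apply 0
  have hcf : ∀ n, Continuous (fderiv ℝ (F n)) := fun n => (hF.smooth n).continuous_fderiv (by simp)
  have hdΨ : Continuous (fderiv ℝ Ψ) := hΨ.continuous_fderiv (by simp)
  have hdΨs : tsupport (fderiv ℝ Ψ) ⊆ ball x ε := (tsupport_fderiv_subset ℝ).trans hΨt
  constructor
  · have h1 : ∀ n, S.T (fun x => bf D x (fderiv ℝ (F n) x) (fderiv ℝ Ψ x)) =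
        (k l : ℝ) * ∫ z in ball (0 : ℂ) 1, (fderiv ℝ (F n ∘ u l) z 1 * fderiv ℝ ψ z 1 +
          fderiv ℝ (F n ∘ u l) z Complex.I * fderiv ℝ ψ z Complex.I) := by
      intro n
      have hz : ∀ y, fderiv ℝ Ψ y = 0 → bf D y (fderiv ℝ (F n) y) (fderiv ℝ Ψ y) = 0 := by
        intro y hy
        rw [hy]
        ext v w
        show _ * 0 - 0 * _ = (0 : ℝ)
        ring
      have hcfn : CF (fun x => bf D x (fderiv ℝ (F n) x) (fderiv ℝ Ψ x)) :=
        ⟨bf_continuous D (hcf n) hdΨ, (hΨs.fderiv ℝ).mono fun y hy hy0 => hy (hz y hy0),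
          fun x u => bf_self _ _ _ _ _⟩
      have hsup : Function.support (fun x => bf D x (fderiv ℝ (F n) x) (fderiv ℝ Ψ x)) ⊆
          Function.support (fderiv ℝ Ψ) := fun y hy hy0 => hy (hz y hy0)
      rw [h.val _ hcfn ((closure_mono hsup).trans hdΨs)]
      rw [Finset.sum_eq_single l]
      · rw [brI_bf (h.brs.disc l) (hF.smooth n) hΨ]
        congr 1
        refine setIntegral_congr_fun measurableSet_ball fun z hz => ?_
        show fderiv ℝ (F n ∘ u l) z 1 * fderiv ℝ (Ψ ∘ u l) z 1 +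
          fderiv ℝ (F n ∘ u l) z Complex.I * fderiv ℝ (Ψ ∘ u l) z Complex.I = _
        rw [hdl z hz]
      · intro m _ hm
        rw [brI_bf (h.brs.disc m) (hF.smooth n) hΨ]
        have h2 : ∫ z in ball (0 : ℂ) 1, (fderiv ℝ (F n ∘ u m) z 1 * fderiv ℝ (Ψ ∘ u m) z 1 +
            fderiv ℝ (F n ∘ u m) z Complex.I * fderiv ℝ (Ψ ∘ u m) z Complex.I) = 0 := by
          rw [setIntegral_congr_fun measurableSet_ball (g := fun _ => (0 : ℝ)) fun z hz => ?_]
          · simp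
          · show fderiv ℝ (F n ∘ u m) z 1 * fderiv ℝ (Ψ ∘ u m) z 1 +
              fderiv ℝ (F n ∘ u m) z Complex.I * fderiv ℝ (Ψ ∘ u m) z Complex.I = 0
            rw [hdm m hm z hz]
            simp
        rw [h2, mul_zero]
      · intro h2
        exact absurd (Finset.mem_univ l) h2
    have h2 := hE Ψ hΨ hΨs
    simp_rw [h1] at h2
    have h3 := h2.const_mul ((k l : ℝ)⁻¹)
    rw [mul_zero] at h3
    refine h3.congr fun n => ?_
    rw [← mul_assoc, inv_mul_cancel₀ hk.ne', one_mul]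
  · intro n
    have hl : ContDiff ℝ ∞ (fun y => F n y • fderiv ℝ Ψ y) :=
      (hF.smooth n).smul (hΨ.fderiv_right (by simp))
    have hls : HasCompactSupport (fun y => F n y • fderiv ℝ Ψ y) := by
      refine (hΨs.fderiv ℝ).mono fun y hy hy0 => hy ?_
      show F n y • fderiv ℝ Ψ y = 0
      rw [hy0, smul_zero]
    have h1 := S.closed _ hl hls
    have hdd : dd (fun y => F n y • fderiv ℝ Ψ y) =
        fun y => H710.wg (fderiv ℝ (F n) y) (fderiv ℝ Ψ y) := by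
      funext y
      have hsm : IsSymmSndFDerivAt ℝ Ψ y :=
        (hΨ.contDiffAt (x := y)).isSymmSndFDerivAt (by
          simp only [minSmoothness_of_isRCLikeNormedField]
          exact WithTop.coe_le_coe.2 le_top)
      have h0 : dd (fderiv ℝ Ψ) y = 0 := by
        ext v w
        show fderiv ℝ (fderiv ℝ Ψ) y v w - fderiv ℝ (fderiv ℝ Ψ) y w v = 0
        rw [hsm.eq, sub_self]
      rw [H710.dd_smul (hF.smooth n) (hΨ.fderiv_right (by simp))]
      rw [h0]
      ext v w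
      show F n y * (0 : ℝ) + H710.wg (fderiv ℝ (F n) y) (fderiv ℝ Ψ y) v w =
        H710.wg (fderiv ℝ (F n) y) (fderiv ℝ Ψ y) v w
      rw [mul_zero, zero_add]
    rw [hdd] at h1
    have hz : ∀ y, fderiv ℝ Ψ y = 0 → H710.wg (fderiv ℝ (F n) y) (fderiv ℝ Ψ y) = 0 := by
      intro y hy
      rw [hy]
      ext v w
      show _ * 0 - 0 * _ = (0 : ℝ)
      ring
    have hcfn : CF (fun y => H710.wg (fderiv ℝ (F n) y) (fderiv ℝ Ψ y)) :=
      ⟨H710.wg_continuous (hcf n) hdΨ, (hΨs.fderiv ℝ).mono fun y hy hy0 => hy (hz y hy0),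
        fun x u => H710.wg_self _ _ _⟩
    have hsup : Function.support (fun y => H710.wg (fderiv ℝ (F n) y) (fderiv ℝ Ψ y)) ⊆
        Function.support (fderiv ℝ Ψ) := fun y hy hy0 => hy (hz y hy0)
    rw [h.val _ hcfn ((closure_mono hsup).trans hdΨs)] at h1
    rw [Finset.sum_eq_single l] at h1
    · rcases mul_eq_zero.1 h1 with h2 | h2
      · exact absurd h2 hk.ne'
      · rw [brI_wg (h.brs.disc l) (hF.smooth n) hΨ] at h2
        rw [← h2]
        refine setIntegral_congr_fun measurableSet_ball fun z hz => ?_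
        show _ = fderiv ℝ (F n ∘ u l) z 1 * fderiv ℝ (Ψ ∘ u l) z Complex.I -
          fderiv ℝ (Ψ ∘ u l) z 1 * fderiv ℝ (F n ∘ u l) z Complex.I
        rw [hdl z hz]
    · intro m _ hm
      rw [brI_wg (h.brs.disc m) (hF.smooth n) hΨ]
      have h2 : ∫ z in ball (0 : ℂ) 1, (fderiv ℝ (F n ∘ u m) z 1 * fderiv ℝ (Ψ ∘ u m) z Complex.I -
          fderiv ℝ (Ψ ∘ u m) z 1 * fderiv ℝ (F n ∘ u m) z Complex.I) = 0 := by
        rw [setIntegral_congr_fun measurableSet_ball (g := fun _ => (0 : ℝ)) fun z hz => ?_]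
        · simp
        · show fderiv ℝ (F n ∘ u m) z 1 * fderiv ℝ (Ψ ∘ u m) z Complex.I -
            fderiv ℝ (Ψ ∘ u m) z 1 * fderiv ℝ (F n ∘ u m) z Complex.I = 0
          rw [hdm m hm z hz]
          simp
      rw [h2, mul_zero]
    · intro h2
      exact absurd (Finset.mem_univ l) h2

/-- real test functions: the integral of `∂ (F n) ∂̄ ψ` tends to zero -/
theorem el_dz_real (h : LS1 S x N u k ε) {j : Fin 4} {F : ℕ → R4 → ℝ} (hF : Mini S j F)
    (hE : EL S F) (l : Fin N) {ψ : ℂ → ℝ} (hψ : ContDiff ℝ ∞ ψ)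
    (hs : tsupport ψ ⊆ ball 0 1 \ {0}) (hε : ∀ z ∈ tsupport ψ, u l z ∈ ball x ε) :
    Tendsto (fun n => ∫ z in ball (0 : ℂ) 1, dz (F n ∘ u l) z * dbar (fun z => (ψ z : ℂ)) z)
      atTop (𝓝 0) := by
  obtain ⟨h1, h2⟩ := el_real h hF hE l hψ hs hε
  have hdψ : Continuous (fderiv ℝ ψ) := hψ.continuous_fderiv (by simp)
  have hcF : ∀ n, ContinuousOn (fderiv ℝ (F n ∘ u l)) (closedBall 0 1) := fun n =>
    ((contDiffOn_comp (h.brs.disc l) (hF.smooth n)).continuousOn_fderiv_of_isOpen isOpen_ball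
      (by simp)).mono sub12
  have hev : ∀ n (ζ : ℂ), ContinuousOn (fun z => fderiv ℝ (F n ∘ u l) z ζ) (closedBall 0 1) :=
    fun n ζ => (hcF n).clm_apply continuousOn_const
  have hev' : ∀ ζ : ℂ, ContinuousOn (fun z => fderiv ℝ ψ z ζ) (closedBall (0 : ℂ) 1) :=
    fun ζ => (hdψ.clm_apply continuous_const).continuousOn
  have hi1 : ∀ n, IntegrableOn (fun z => fderiv ℝ (F n ∘ u l) z 1 * fderiv ℝ ψ z 1 +
      fderiv ℝ (F n ∘ u l) z Complex.I * fderiv ℝ ψ z Complex.I) (ball 0 1) := fun n =>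
    ((((hev n 1).mul (hev' 1)).add ((hev n Complex.I).mul (hev' Complex.I))).integrableOn_compact
      (isCompact_closedBall _ _)).mono_set ball_subset_closedBall
  have hi2 : ∀ n, IntegrableOn (fun z => fderiv ℝ (F n ∘ u l) z 1 * fderiv ℝ ψ z Complex.I -
      fderiv ℝ ψ z 1 * fderiv ℝ (F n ∘ u l) z Complex.I) (ball 0 1) := fun n =>
    ((((hev n 1).mul (hev' Complex.I)).sub ((hev' 1).mul (hev n Complex.I))).integrableOn_compact
      (isCompact_closedBall _ _)).mono_set ball_subset_closedBall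
  have hdb : ∀ z, dbar (fun z => (ψ z : ℂ)) z =
      ((fderiv ℝ ψ z 1 : ℝ) + Complex.I * (fderiv ℝ ψ z Complex.I : ℝ)) / 2 := by
    intro z
    have h3 : HasFDerivAt (fun z => (ψ z : ℂ)) (Complex.ofRealCLM.comp (fderiv ℝ ψ z)) z :=
      Complex.ofRealCLM.hasFDerivAt.comp z (hψ.differentiable (by simp) z).hasFDerivAt
    unfold dbar
    rw [h3.fderiv]
    simp only [ContinuousLinearMap.comp_apply, Complex.ofRealCLM_apply, smul_eq_mul]
    ring
  have key : ∀ n, ∫ z in ball (0 : ℂ) 1, dz (F n ∘ u l) z * dbar (fun z => (ψ z : ℂ)) z =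
      ((1 / 4 : ℝ) * ∫ z in ball (0 : ℂ) 1, (fderiv ℝ (F n ∘ u l) z 1 * fderiv ℝ ψ z 1 +
        fderiv ℝ (F n ∘ u l) z Complex.I * fderiv ℝ ψ z Complex.I) : ℝ) := by
    intro n
    have e1 : ∀ z, dz (F n ∘ u l) z * dbar (fun z => (ψ z : ℂ)) z =
        (1 / 4 : ℂ) * (((fderiv ℝ (F n ∘ u l) z 1 * fderiv ℝ ψ z 1 +
          fderiv ℝ (F n ∘ u l) z Complex.I * fderiv ℝ ψ z Complex.I : ℝ) : ℂ) +
        Complex.I * ((fderiv ℝ (F n ∘ u l) z 1 * fderiv ℝ ψ z Complex.I -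
          fderiv ℝ ψ z 1 * fderiv ℝ (F n ∘ u l) z Complex.I : ℝ) : ℂ)) := by
      intro z
      rw [hdb]
      unfold dz
      push_cast
      linear_combination (-(1 / 4 : ℂ) * (fderiv ℝ (F n ∘ u l) z Complex.I : ℂ) *
        (fderiv ℝ ψ z Complex.I : ℂ)) * Complex.I_sq
    simp_rw [e1]
    rw [integral_const_mul, integral_add (hi1 n).ofReal ((hi2 n).ofReal.const_mul _),
      integral_const_mul, integral_complex_ofReal, integral_complex_ofReal, h2 n]
    push_cast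
    ring
  simp_rw [key]
  have h3 := (h1.const_mul (1 / 4 : ℝ))
  rw [mul_zero] at h3
  have h4 := (Complex.continuous_ofReal.tendsto 0).comp h3
  rw [Complex.ofReal_zero] at h4
  exact h4

theorem dbar_split {ψ : ℂ → ℂ} (hψ : ContDiff ℝ ∞ ψ) (z : ℂ) :
    dbar ψ z = dbar (fun z => ((ψ z).re : ℂ)) z + Complex.I * dbar (fun z => ((ψ z).im : ℂ)) z := by
  have hd : HasFDerivAt ψ (fderiv ℝ ψ z) z := (hψ.differentiable (by simp) z).hasFDerivAt
  have h1 : HasFDerivAt (fun z => ((ψ z).re : ℂ))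
      (Complex.ofRealCLM.comp (Complex.reCLM.comp (fderiv ℝ ψ z))) z :=
    Complex.ofRealCLM.hasFDerivAt.comp z (Complex.reCLM.hasFDerivAt.comp z hd)
  have h2 : HasFDerivAt (fun z => ((ψ z).im : ℂ))
      (Complex.ofRealCLM.comp (Complex.imCLM.comp (fderiv ℝ ψ z))) z :=
    Complex.ofRealCLM.hasFDerivAt.comp z (Complex.imCLM.hasFDerivAt.comp z hd)
  unfold dbar
  rw [h1.fderiv, h2.fderiv]
  simp only [ContinuousLinearMap.comp_apply, Complex.ofRealCLM_apply, Complex.reCLM_apply,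
    Complex.imCLM_apply, smul_eq_mul]
  have e1 := Complex.re_add_im (fderiv ℝ ψ z 1)
  have e2 := Complex.re_add_im (fderiv ℝ ψ z Complex.I)
  conv_lhs => rw [← e1, ← e2]
  ring

/-- complex test functions -/
theorem el_dz (h : LS1 S x N u k ε) {j : Fin 4} {F : ℕ → R4 → ℝ} (hF : Mini S j F)
    (hE : EL S F) (l : Fin N) {ψ : ℂ → ℂ} (hψ : ContDiff ℝ ∞ ψ)
    (hs : tsupport ψ ⊆ ball 0 1 \ {0}) (hε : ∀ z ∈ tsupport ψ, u l z ∈ ball x ε) :
    Tendsto (fun n => ∫ z in ball (0 : ℂ) 1, dz (F n ∘ u l) z * dbar ψ z) atTop (𝓝 0) := by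
  have hr : ContDiff ℝ ∞ fun z => (ψ z).re := Complex.reCLM.contDiff.comp hψ
  have hi : ContDiff ℝ ∞ fun z => (ψ z).im := Complex.imCLM.contDiff.comp hψ
  have hrs : tsupport (fun z => (ψ z).re) ⊆ tsupport ψ :=
    closure_mono fun z (hz : (ψ z).re ≠ 0) h0 => hz (by rw [h0]; rfl)
  have his : tsupport (fun z => (ψ z).im) ⊆ tsupport ψ :=
    closure_mono fun z (hz : (ψ z).im ≠ 0) h0 => hz (by rw [h0]; rfl)
  have h1 := el_dz_real h hF hE l hr (hrs.trans hs) (fun z hz => hε z (hrs hz))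
  have h2 := el_dz_real h hF hE l hi (his.trans hs) (fun z hz => hε z (his hz))
  have hc : ∀ n, ContinuousOn (dz (F n ∘ u l)) (closedBall 0 1) := fun n =>
    (dz_continuousOn (h.brs.disc l) (hF.smooth n)).mono sub12
  have hdb : ∀ {φ : ℂ → ℂ}, ContDiff ℝ ∞ φ → Continuous (dbar φ) := by
    intro φ hφ
    have h3 : Continuous (fderiv ℝ φ) := hφ.continuous_fderiv (by simp)
    exact (((h3.clm_apply continuous_const).add
      ((h3.clm_apply continuous_const).const_smul Complex.I))).const_smul (1 / 2 : ℂ)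
  have hr' : ContDiff ℝ ∞ fun z => (((ψ z).re : ℝ) : ℂ) := Complex.ofRealCLM.contDiff.comp hr
  have hi' : ContDiff ℝ ∞ fun z => (((ψ z).im : ℝ) : ℂ) := Complex.ofRealCLM.contDiff.comp hi
  have hint : ∀ n {φ : ℂ → ℂ}, ContDiff ℝ ∞ φ →
      IntegrableOn (fun z => dz (F n ∘ u l) z * dbar φ z) (ball 0 1) := fun n φ hφ =>
    (((hc n).mul (hdb hφ).continuousOn).integrableOn_compact
      (isCompact_closedBall _ _)).mono_set ball_subset_closedBall
  have h3 := h1.add (h2.const_mul Complex.I)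
  rw [mul_zero, add_zero] at h3
  refine h3.congr fun n => ?_
  rw [← integral_const_mul, ← integral_add (hint n hr') ((hint n hi').const_mul _)]
  refine setIntegral_congr_fun measurableSet_ball fun z _ => ?_
  show _ = dz (F n ∘ u l) z * dbar ψ z
  rw [dbar_split hψ]
  ring

theorem lim_one (hW : WEYL_statement) (h : LS1 S x N u k ε) {j : Fin 4} {F : ℕ → R4 → ℝ}
    (hF : Mini S j F) (hE : EL S F) (l : Fin N) {r : ℝ} (hr0 : 0 < r) (hr1 : r ≤ 1)
    (hr : ∀ z ∈ ball (0 : ℂ) r, u l z ∈ ball x (ε / 2)) : ∃ h, Lim F (u l) r h := by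
  have hp : ∀ n, MemLp (dz (F n ∘ u l)) 2 (volume.restrict (ball (0 : ℂ) r)) := fun n =>
    memLp_of_cont (dz_continuousOn (h.brs.disc l) (hF.smooth n)) hr1
  obtain ⟨g, hg, hlim, hΦ⟩ := l2_limit hp (cau_disc h hF l hr1 hr)
  have hdb : ∀ {φ : ℂ → ℂ}, ContDiff ℝ ∞ φ → Continuous (dbar φ) := by
    intro φ hφ
    have h3 : Continuous (fderiv ℝ φ) := hφ.continuous_fderiv (by simp)
    exact (((h3.clm_apply continuous_const).add
      ((h3.clm_apply continuous_const).const_smul Complex.I))).const_smul (1 / 2 : ℂ)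
  obtain ⟨h', hh', hgh⟩ := hW r g hr0 hg.1 (hg.integrable_norm_pow (by norm_num))
    (fun ψ hψ _ hψs => by
      have h1 := hΦ (dbar ψ) (memLp_of_cont (hdb hψ).continuousOn hr1)
      have hs : tsupport ψ ⊆ ball 0 1 \ {0} := fun z hz =>
        ⟨ball_subset_ball hr1 (hψs hz).1, (hψs hz).2⟩
      have h2 := el_dz h hF hE l hψ hs (fun z hz =>
        ball_subset_ball (by linarith [h.brs.posε]) (hr z (hψs hz).1))
      refine tendsto_nhds_unique h1 (h2.congr fun n => ?_)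
      refine setIntegral_eq_of_subset_of_forall_sdiff_eq_zero measurableSet_ball
        (ball_subset_ball hr1) fun z hz => ?_
      have h3 : z ∉ tsupport ψ := fun hz' => hz.2 (hψs hz').1
      have h4 : ψ =ᶠ[𝓝 z] fun _ => 0 := by
        filter_upwards [(isClosed_tsupport ψ).isOpen_compl.mem_nhds h3] with w hw using
          image_eq_zero_of_notMem_tsupport hw
      have h5 : fderiv ℝ ψ z = 0 := by
        rw [h4.fderiv_eq]
        exact fderiv_const_apply 0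
      show dz (F n ∘ u l) z * dbar ψ z = 0
      unfold dbar
      rw [h5]
      simp)
  refine ⟨h', hh', hlim.congr fun n => ?_, ?_⟩
  · refine integral_congr_ae ?_
    filter_upwards [hgh] with z hz
    rw [hz]
  · have hi : IntegrableOn (fun z => ‖g z‖ ^ 2) (ball 0 r) :=
      hg.integrable_norm_pow (by norm_num)
    refine Integrable.congr hi ?_
    filter_upwards [hgh] with z hz
    rw [hz]

end

/-- `LIMS` -/
theorem LIMS : LIMS_statement := by
  intro hW D S F hF x _ N u k ε hLS l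
  have hc : ContinuousAt (u l) 0 :=
    ((hLS.brs.disc l).smooth.contDiffAt (isOpen_ball.mem_nhds (mem_ball_self (by norm_num)))).continuousAt
  have h1 : ∀ᶠ z in 𝓝 (0 : ℂ), u l z ∈ ball x (ε / 2) :=
    hc.eventually (by rw [hLS.brs.zero l]; exact ball_mem_nhds _ (half_pos hLS.brs.posε))
  obtain ⟨r, hr, h2⟩ := Metric.eventually_nhds_iff_ball.1 h1
  have h3 : ∀ j, ∃ h, Lim (F j) (u l) (min r 1) h := fun j =>
    lim_one hW hLS (hF j).1 (hF j).2 l (lt_min hr one_pos) (min_le_right _ _)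
      (fun z hz => h2 z (ball_subset_ball (min_le_left _ _) hz))
  choose h hh using h3
  exact ⟨min r 1, lt_min hr one_pos, min_le_right _ _, h, hh⟩

end Vale.Agent.P247.H690.HD
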