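import Vale.Agent.P247.H690.HD.Lims
import Vale.Agent.P247.H306.HodD
import Vale.Agent.P247.H821.H3Main
import Vale.Agent.P247.H821.Repar

/-!
# P247, stage 2, layer C: `HODGE`
-/

namespace Vale.Agent.P247.H690.HD

open Vale.Agent.P247.H574

/-- `HODGE`, unconditional -/
theorem HODGE : HODGE_statement :=
  Vale.Agent.P247.H306.HODGEX MIN Vale.Agent.P247.H306.weyl LIMS Vale.Agent.P247.H821.H3
    Vale.Agent.P247.H306.gen Vale.Agent.P247.H821.RECENTER Vale.Agent.P247.H821.REPAR

end Vale.Agent.P247.H690.HD
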