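import Vale.Agent.P247.H690.HD.Sta
import Vale.Agent.P247.H710.CurB

/-!
# P247, HODGE: minimising sequences
-/

open scoped ContDiff Topology
open Set MeasureTheory Filter Metric

noncomputable section

namespace Vale.Agent.P247.H690.HD

open Vale.Agent.P247.H74 Vale.Agent.P247.H574

attribute [local instance] H710.f2G H710.f2S H710.f1G H710.f1S

theorem tr_eq (k : Fin 4 → ℤ) (x : R4) : tr k x = x + fun i => (k i : ℝ) := H710.tr_sub k x

theorem fderiv_comp_tr {E : Type*} [NormedAddCommGroup E] [NormedSpace ℝ E] (f : R4 → E)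
    (k : Fin 4 → ℤ) (x : R4) : fderiv ℝ (fun y => f (tr k y)) x = fderiv ℝ f (tr k x) := by
  have : (fun y => f (tr k y)) = fun y => f (y + fun i => (k i : ℝ)) := by
    funext y; rw [tr_eq]
  rw [this, fderiv_comp_add_right, tr_eq]

/-- periodisation of a test function -/
def peri (ψ : R4 → ℝ) (x : R4) : ℝ := ∑' k : Fin 4 → ℤ, ψ (tr k x)

theorem peri_window {ψ : R4 → ℝ} (hs : HasCompactSupport ψ) (B : Set R4)
    (hB : Bornology.IsBounded B) : ∃ s : Finset (Fin 4 → ℤ), (∀ k, k ∈ s ↔ -k ∈ s) ∧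
      (∀ k, k ∉ s → ∀ x ∈ B, ψ (tr k x) = 0) ∧
      ∀ x ∈ B, peri ψ x = ∑ k ∈ s, ψ (tr k x) := by
  obtain ⟨s, h1, h2⟩ := H710.exists_window (B ∪ tsupport ψ) (hB.union hs.isCompact.isBounded)
  have h3 : ∀ k, k ∉ s → ∀ x ∈ B, ψ (tr k x) = 0 := by
    intro k hk x hx
    by_contra hne
    exact hk (h2 k x (Or.inl hx) (Or.inr (subset_tsupport _ hne)))
  refine ⟨s, h1, h3, fun x hx => tsum_eq_sum fun k hk => h3 k hk x hx⟩

theorem peri_smooth {ψ : R4 → ℝ} (hψ : ContDiff ℝ ∞ ψ) (hs : HasCompactSupport ψ) :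
    ContDiff ℝ ∞ (peri ψ) := by
  rw [contDiff_iff_contDiffAt]
  intro x
  obtain ⟨s, -, -, h⟩ := peri_window hs (ball x 1) isBounded_ball
  have h1 : ContDiffAt ℝ ∞ (fun y => ∑ k ∈ s, ψ (tr k y)) x :=
    ContDiffAt.sum fun k _ => (hψ.comp (H710.tr_contDiff k)).contDiffAt
  refine h1.congr_of_eventuallyEq ?_
  filter_upwards [ball_mem_nhds x one_pos] with y hy using h y hy

theorem peri_per (ψ : R4 → ℝ) (k : Fin 4 → ℤ) (x : R4) : peri ψ (tr k x) = peri ψ x := by
  have h1 : ∀ l : Fin 4 → ℤ, ψ (tr l (tr k x)) = ψ (tr ((Equiv.addRight k) l) x) := fun l => by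
    rw [H710.tr_tr]; rfl
  show (∑' l : Fin 4 → ℤ, ψ (tr l (tr k x))) = ∑' l : Fin 4 → ℤ, ψ (tr l x)
  simp_rw [h1]
  exact (Equiv.addRight k).tsum_eq (fun l => ψ (tr l x))

theorem peri_fderiv {ψ : R4 → ℝ} (hψ : ContDiff ℝ ∞ ψ) (hs : HasCompactSupport ψ) (B : Set R4)
    (hB : Bornology.IsBounded B) : ∃ s : Finset (Fin 4 → ℤ), (∀ k, k ∈ s ↔ -k ∈ s) ∧
      (∀ k, k ∉ s → ∀ x ∈ B, fderiv ℝ ψ (tr k x) = 0) ∧
      ∀ x ∈ B, fderiv ℝ (peri ψ) x = ∑ k ∈ s, fderiv ℝ ψ (tr k x) := by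
  obtain ⟨s, h0, h1, h2⟩ := peri_window hs (thickening 1 B) hB.thickening
  have hsub : ∀ x ∈ B, thickening 1 B ∈ 𝓝 x := fun x hx =>
    isOpen_thickening.mem_nhds (self_subset_thickening one_pos B hx)
  refine ⟨s, h0, fun k hk x hx => ?_, fun x hx => ?_⟩
  · have h3 : (fun y => ψ (tr k y)) =ᶠ[𝓝 x] fun _ => (0 : ℝ) := by
      filter_upwards [hsub x hx] with y hy using h1 k hk y hy
    rw [← fderiv_comp_tr, h3.fderiv_eq]
    exact fderiv_const_apply 0
  · have h3 : peri ψ =ᶠ[𝓝 x] fun y => ∑ k ∈ s, ψ (tr k y) := by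
      filter_upwards [hsub x hx] with y hy using h2 y hy
    rw [h3.fderiv_eq]
    have h4 : ∀ k ∈ s, DifferentiableAt ℝ (fun y => ψ (tr k y)) x := fun k _ =>
      ((hψ.comp (H710.tr_contDiff k)).differentiable (by simp)) x
    rw [fderiv_fun_sum h4]
    exact Finset.sum_congr rfl fun k _ => fderiv_comp_tr ψ k x

theorem bf_wg (D : Data) (x : R4) (a c : R4 →L[ℝ] ℝ) :
    bf D x a c = H710.wg (a.comp (D.J x)) c := rfl

theorem bf_self (D : Data) (x : R4) (a c : R4 →L[ℝ] ℝ) (u : R4) : bf D x a c u u = 0 := by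
  rw [bf_wg, H710.wg_self]

theorem bf_continuous (D : Data) {a c : R4 → R4 →L[ℝ] ℝ} (ha : Continuous a) (hc : Continuous c) :
    Continuous fun x => bf D x (a x) (c x) :=
  H710.wg_continuous (ha.clm_comp D.J_smooth.continuous) hc

theorem bf_tr (D : Data) (k : Fin 4 → ℤ) (x : R4) (a c : R4 →L[ℝ] ℝ) :
    bf D (tr k x) a c = bf D x a c := by
  have : D.J (tr k x) = D.J x := D.J_per k x
  unfold bf
  rw [this]

section

variable {D : Data} (S : ICur D)

theorem bf_cf {χ : R4 → ℝ} (hχ : Continuous χ) (hs : HasCompactSupport χ)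
    {a c : R4 → R4 →L[ℝ] ℝ} (ha : Continuous a) (hc : Continuous c) :
    CF (fun x => χ x • bf D x (a x) (c x)) :=
  H710.CF.fmul hχ hs (bf_continuous D ha hc) fun _ _ => bf_self _ _ _ _ _

/-- the current only sees complex lines -/
theorem T_eq {φ ψ : R4 → F2} (h1 : CF φ) (h2 : CF ψ)
    (h : ∀ x u, φ x u (D.J x u) = ψ x u (D.J x u)) : S.T φ = S.T ψ := by
  have hs : CF fun x => φ x - ψ x := by
    have := H710.CF.add h1 (H710.CF.smul (-1) h2)
    convert this using 1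
    funext x
    show φ x - ψ x = φ x + (-1 : ℝ) • ψ x
    rw [neg_one_smul, sub_eq_add_neg]
  have hs' : CF fun x => ψ x - φ x := by
    have := H710.CF.add h2 (H710.CF.smul (-1) h1)
    convert this using 1
    funext x
    show ψ x - φ x = ψ x + (-1 : ℝ) • φ x
    rw [neg_one_smul, sub_eq_add_neg]
  have h3 := S.pos _ hs (fun x u => by
    show 0 ≤ φ x u (D.J x u) - ψ x u (D.J x u)
    rw [h x u, sub_self])
  have h4 := S.pos _ hs' (fun x u => by
    show 0 ≤ ψ x u (D.J x u) - φ x u (D.J x u)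
    rw [h x u, sub_self])
  rw [H710.T_sub S h1 h2] at h3
  rw [H710.T_sub S h2 h1] at h4
  linarith

/-- monotonicity -/
theorem T_mono {φ ψ : R4 → F2} (h1 : CF φ) (h2 : CF ψ)
    (h : ∀ x u, φ x u (D.J x u) ≤ ψ x u (D.J x u)) : S.T φ ≤ S.T ψ := by
  have hs' : CF fun x => ψ x - φ x := by
    have := H710.CF.add h2 (H710.CF.smul (-1) h1)
    convert this using 1
    funext x
    show ψ x - φ x = ψ x + (-1 : ℝ) • φ x
    rw [neg_one_smul, sub_eq_add_neg]
  have h4 := S.pos _ hs' (fun x u => by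
    show 0 ≤ ψ x u (D.J x u) - φ x u (D.J x u)
    linarith [h x u])
  rw [H710.T_sub S h2 h1] at h4
  linarith

theorem bf_J (x : R4) (a c : R4 →L[ℝ] ℝ) (u : R4) :
    bf D x a c u (D.J x u) = a u * c u + a (D.J x u) * c (D.J x u) := by
  rw [bf_apply, D.J_sq, map_neg]
  ring

/-- the energy form -/
def QQ (a c : R4 → R4 →L[ℝ] ℝ) : ℝ := S.T (fun x => H710.bet x • bf D x (a x) (c x))

theorem bet_c : Continuous H710.bet := H710.bet_smooth.continuous

theorem QQ_nonneg {a : R4 → R4 →L[ℝ] ℝ} (ha : Continuous a) : 0 ≤ QQ S a a := by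
  refine S.pos _ (bf_cf bet_c H710.bet_compact ha ha) fun x u => ?_
  show 0 ≤ H710.bet x * bf D x (a x) (a x) u (D.J x u)
  rw [bf_J]
  have := H710.bet_nonneg x
  have h1 := mul_self_nonneg (a x u)
  have h2 := mul_self_nonneg (a x (D.J x u))
  positivity

/-- expansion of the square -/
theorem QQ_expand {a c : R4 → R4 →L[ℝ] ℝ} (ha : Continuous a) (hc : Continuous c) (t : ℝ) :
    QQ S (fun x => a x + t • c x) (fun x => a x + t • c x) =
      QQ S a a + 2 * t * QQ S a c + t ^ 2 * QQ S c c := by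
  have h1 := bf_cf (D := D) bet_c H710.bet_compact ha ha
  have h2 := bf_cf (D := D) bet_c H710.bet_compact ha hc
  have h3 := bf_cf (D := D) bet_c H710.bet_compact hc hc
  have h4 := H710.CF.add h1 (H710.CF.add (H710.CF.smul (2 * t) h2) (H710.CF.smul (t ^ 2) h3))
  have h5 : Continuous fun x => a x + t • c x := ha.add (hc.const_smul t)
  have h6 := bf_cf (D := D) bet_c H710.bet_compact h5 h5
  have h7 : S.T (fun x => H710.bet x • bf D x (a x + t • c x) (a x + t • c x)) = S.T _ :=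
    T_eq S h6 h4 (fun x u => by
      show H710.bet x * bf D x (a x + t • c x) (a x + t • c x) u (D.J x u) =
        H710.bet x * bf D x (a x) (a x) u (D.J x u) +
          (2 * t * (H710.bet x * bf D x (a x) (c x) u (D.J x u)) +
            t ^ 2 * (H710.bet x * bf D x (c x) (c x) u (D.J x u)))
      rw [bf_J, bf_J, bf_J, bf_J]
      show H710.bet x * ((a x u + t * c x u) * (a x u + t * c x u) +
        (a x (D.J x u) + t * c x (D.J x u)) * (a x (D.J x u) + t * c x (D.J x u))) = _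
      ring)
  show S.T _ = _
  rw [h7, S.add _ _ h1 (H710.CF.add (H710.CF.smul (2 * t) h2) (H710.CF.smul (t ^ 2) h3)),
    S.add _ _ (H710.CF.smul (2 * t) h2) (H710.CF.smul (t ^ 2) h3), S.smul _ _ h2, S.smul _ _ h3]
  unfold QQ
  ring

theorem QQ_symm {a c : R4 → R4 →L[ℝ] ℝ} (ha : Continuous a) (hc : Continuous c) :
    QQ S a c = QQ S c a :=
  T_eq S (bf_cf bet_c H710.bet_compact ha hc) (bf_cf bet_c H710.bet_compact hc ha) fun x u => by
    show H710.bet x * bf D x (a x) (c x) u (D.J x u) = H710.bet x * bf D x (c x) (a x) u (D.J x u)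
    rw [bf_J, bf_J]
    ring

theorem paral {a c : R4 → R4 →L[ℝ] ℝ} (ha : Continuous a) (hc : Continuous c) :
    QQ S (fun x => a x - c x) (fun x => a x - c x) = 2 * QQ S a a + 2 * QQ S c c -
      4 * QQ S (fun x => (1 / 2 : ℝ) • (a x + c x)) (fun x => (1 / 2 : ℝ) • (a x + c x)) := by
  have h1 := QQ_expand S ha hc (-1)
  have ha2 : Continuous fun x => (1 / 2 : ℝ) • a x := by
    have := ha.const_smul (1 / 2 : ℝ)
    exact this
  have h2 := QQ_expand S (a := fun x => (1 / 2 : ℝ) • a x) (c := c) ha2 hc (1 / 2)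
  have e1 : (fun x => a x + (-1 : ℝ) • c x) = fun x => a x - c x := by
    funext x; rw [neg_one_smul, sub_eq_add_neg]
  have e2 : (fun x => (1 / 2 : ℝ) • a x + (1 / 2 : ℝ) • c x) = fun x => (1 / 2 : ℝ) • (a x + c x) := by
    funext x; rw [smul_add]
  rw [e1] at h1
  rw [e2] at h2
  have h3 : QQ S (fun x => (1 / 2 : ℝ) • a x) (fun x => (1 / 2 : ℝ) • a x) = 1 / 4 * QQ S a a := by
    have := QQ_expand S (a := fun _ => 0) (c := a) continuous_const ha (1 / 2)
    have e3 : (fun x => (0 : R4 →L[ℝ] ℝ) + (1 / 2 : ℝ) • a x) = fun x => (1 / 2 : ℝ) • a x := by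
      funext x; rw [zero_add]
    have e4 : QQ S (fun _ => 0) (fun _ => 0) = 0 := by
      have e5 : (fun x => H710.bet x • bf D x 0 0) = fun _ => (0 : F2) := by
        funext x
        ext u v
        show H710.bet x * (0 * 0 - 0 * 0) = 0
        ring
      show S.T (fun x => H710.bet x • bf D x 0 0) = 0
      rw [e5, H710.T_zero]
    have e6 : QQ S (fun _ => 0) a = 0 := by
      have e5 : (fun x => H710.bet x • bf D x 0 (a x)) = fun _ => (0 : F2) := by
        funext x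
        ext u v
        show H710.bet x * (0 * a x v - a x u * 0) = 0
        ring
      show S.T (fun x => H710.bet x • bf D x 0 (a x)) = 0
      rw [e5, H710.T_zero]
    rw [e3, e4, e6] at this
    rw [this]
    ring
  have h4 : QQ S (fun x => (1 / 2 : ℝ) • a x) c = 1 / 2 * QQ S a c := by
    have e7 : (fun x => H710.bet x • bf D x ((1 / 2 : ℝ) • a x) (c x)) =
        (1 / 2 : ℝ) • fun x => H710.bet x • bf D x (a x) (c x) := by
      funext x
      ext u v
      show H710.bet x * ((1 / 2 * a x (D.J x u)) * c x v - c x u * (1 / 2 * a x (D.J x v))) =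
        1 / 2 * (H710.bet x * (a x (D.J x u) * c x v - c x u * a x (D.J x v)))
      ring
    show S.T (fun x => H710.bet x • bf D x ((1 / 2 : ℝ) • a x) (c x)) = _
    rw [e7, S.smul _ _ (bf_cf bet_c H710.bet_compact ha hc)]
    rfl
  rw [h3, h4] at h2
  linarith

/-- unfolding -/
theorem unfold_T {φ : R4 → F2} (h : CF φ) (s : Finset (Fin 4 → ℤ))
    (hs : ∀ k, k ∉ s → ∀ x ∈ tsupport φ, H710.bet (tr k x) = 0) :
    S.T φ = ∑ k ∈ s, S.T (fun x => H710.bet x • φ (tr (-k) x)) := by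
  have h1 : ∀ k : Fin 4 → ℤ, CF (fun x => H710.bet (tr k x) • φ x) := fun k =>
    H710.CF.fmul' (bet_c.comp (H710.tr_continuous k)) h
  have h2 : φ = fun x => ∑ k ∈ s, H710.bet (tr k x) • φ x := by
    funext x
    rw [← Finset.sum_smul]
    by_cases hx : x ∈ tsupport φ
    · have h3 : ∑ k ∈ s, H710.bet (tr k x) = 1 := by
        rw [← (H710.hasSum_bet x).tsum_eq]
        exact (tsum_eq_sum fun k hk => hs k hk x hx).symm
      rw [h3, one_smul]
    · rw [image_eq_zero_of_notMem_tsupport hx, smul_zero]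
  conv_lhs => rw [h2]
  rw [H710.T_sum S s fun k _ => h1 k]
  refine Finset.sum_congr rfl fun k _ => ?_
  have h4 : CF (fun x => H710.bet x • φ (tr (-k) x)) :=
    H710.CF.fmul' bet_c (H710.CF.tr h (-k))
  rw [← S.per _ h4 k]
  congr 1
  funext x
  rw [H710.tr_neg_cancel']

/-- the energy of a periodic form controls the local energies -/
theorem loc_le {χ : R4 → ℝ} (hχ : Continuous χ) (hs : HasCompactSupport χ) (_h0 : ∀ x, 0 ≤ χ x) :
    ∃ C : ℝ, 0 ≤ C ∧ ∀ a : R4 → R4 →L[ℝ] ℝ, Continuous a → (∀ k x, a (tr k x) = a x) →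
      S.T (fun x => χ x • qf D x (a x)) ≤ C * QQ S a a := by
  obtain ⟨s, -, h1, -⟩ := peri_window H710.bet_compact (tsupport χ) hs.isCompact.isBounded
  obtain ⟨M, hM⟩ := hs.exists_bound_of_continuous hχ
  have hM0 : 0 ≤ M := (norm_nonneg _).trans (hM 0)
  refine ⟨s.card * M, by positivity, fun a ha hp => ?_⟩
  have hcf : CF (fun x => χ x • qf D x (a x)) := bf_cf hχ hs ha ha
  have hsub : tsupport (fun x => χ x • qf D x (a x)) ⊆ tsupport χ := by
    apply closure_mono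
    intro x hx hx0
    apply hx
    show χ x • qf D x (a x) = 0
    rw [hx0, zero_smul]
  rw [unfold_T S hcf s fun k hk x hx => h1 k hk x (hsub hx)]
  have h2 : ∀ k ∈ s, S.T (fun x => H710.bet x • (χ (tr (-k) x) • qf D (tr (-k) x) (a (tr (-k) x))))
      ≤ M * QQ S a a := by
    intro k _
    have h3 : CF (fun x => H710.bet x • (χ (tr (-k) x) • qf D (tr (-k) x) (a (tr (-k) x)))) :=
      H710.CF.fmul' bet_c (H710.CF.tr hcf (-k))
    have h4 : CF (M • fun x => H710.bet x • bf D x (a x) (a x)) :=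
      H710.CF.smul M (bf_cf bet_c H710.bet_compact ha ha)
    unfold QQ
    rw [← S.smul M _ (bf_cf bet_c H710.bet_compact ha ha)]
    refine T_mono S h3 h4 fun x u => ?_
    show H710.bet x * (χ (tr (-k) x) * qf D (tr (-k) x) (a (tr (-k) x)) u (D.J x u)) ≤
      M * (H710.bet x * bf D x (a x) (a x) u (D.J x u))
    unfold qf
    rw [hp, bf_tr, bf_J]
    have h5 : χ (tr (-k) x) ≤ M := (le_abs_self _).trans (hM _)
    have h6 := H710.bet_nonneg x
    have h7 : 0 ≤ a x u * a x u + a x (D.J x u) * a x (D.J x u) := by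
      have := mul_self_nonneg (a x u)
      have := mul_self_nonneg (a x (D.J x u))
      linarith
    have h8 : χ (tr (-k) x) * (a x u * a x u + a x (D.J x u) * a x (D.J x u)) ≤
        M * (a x u * a x u + a x (D.J x u) * a x (D.J x u)) := mul_le_mul_of_nonneg_right h5 h7
    nlinarith
  calc _ ≤ ∑ _k ∈ s, M * QQ S a a := Finset.sum_le_sum h2
    _ = s.card * M * QQ S a a := by rw [Finset.sum_const, nsmul_eq_mul]; ring

/-- testing with a function of compact support -/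
theorem test_eq {a : R4 → R4 →L[ℝ] ℝ} (ha : Continuous a) (hp : ∀ k x, a (tr k x) = a x)
    {ψ : R4 → ℝ} (hψ : ContDiff ℝ ∞ ψ) (hs : HasCompactSupport ψ) :
    S.T (fun x => bf D x (a x) (fderiv ℝ ψ x)) = QQ S a (fderiv ℝ (peri ψ)) := by
  have hdψ : Continuous (fderiv ℝ ψ) := hψ.continuous_fderiv (by simp)
  have hcs : HasCompactSupport (fderiv ℝ ψ) := hs.fderiv ℝ
  have hsup : ∀ x, fderiv ℝ ψ x = 0 → bf D x (a x) (fderiv ℝ ψ x) = 0 := by
    intro x hx
    rw [hx]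
    ext u v
    show a x (D.J x u) * 0 - 0 * a x (D.J x v) = 0
    ring
  have hcf : CF (fun x => bf D x (a x) (fderiv ℝ ψ x)) :=
    ⟨bf_continuous D ha hdψ, hcs.mono fun x hx hx0 => hx (hsup x hx0), fun x u => bf_self _ _ _ _ _⟩
  set B : Set R4 := tsupport ψ ∪ tsupport H710.bet with hB
  have hBb : Bornology.IsBounded B := hs.isCompact.isBounded.union H710.bet_compact.isCompact.isBounded
  obtain ⟨s₁, h1, h2, h3⟩ := peri_fderiv hψ hs B hBb
  obtain ⟨s₂, h4, h5, -⟩ := peri_window H710.bet_compact B hBb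
  classical
  set s := s₁ ∪ s₂ with hsdef
  have hsym : ∀ k, k ∈ s ↔ -k ∈ s := by
    intro k
    simp only [hsdef, Finset.mem_union]
    rw [h1 k, h4 k]
  rw [unfold_T S hcf s (by
    intro k hk x hx
    refine h5 k (fun h => hk (Finset.mem_union_right _ h)) x (Or.inl ?_)
    have h6 : tsupport (fun x => bf D x (a x) (fderiv ℝ ψ x)) ⊆ tsupport (fderiv ℝ ψ) :=
      closure_mono fun y hy hy0 => hy (hsup y hy0)
    exact (tsupport_fderiv_subset ℝ) (h6 hx))]
  have h7 : ∀ x ∈ tsupport H710.bet, fderiv ℝ (peri ψ) x = ∑ k ∈ s, fderiv ℝ ψ (tr (-k) x) := by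
    intro x hx
    rw [h3 x (Or.inr hx)]
    have h8 : ∑ k ∈ s, fderiv ℝ ψ (tr (-k) x) = ∑ k ∈ s, fderiv ℝ ψ (tr k x) := by
      refine Finset.sum_nbij' (fun k => -k) (fun k => -k) (fun k hk => (hsym k).1 hk)
        (fun k hk => (hsym k).1 hk) (fun k _ => neg_neg k) (fun k _ => neg_neg k) (fun k _ => rfl)
    rw [h8]
    refine Finset.sum_subset Finset.subset_union_left fun k _ hk => ?_
    exact h2 k hk x (Or.inr hx)
  have h9 : ∀ k, CF (fun x => H710.bet x • bf D x (a x) (fderiv ℝ ψ (tr (-k) x))) := fun k =>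
    bf_cf bet_c H710.bet_compact ha (hdψ.comp (H710.tr_continuous _))
  have h10 : ∀ k ∈ s, S.T (fun x => H710.bet x •
      bf D (tr (-k) x) (a (tr (-k) x)) (fderiv ℝ ψ (tr (-k) x))) =
      S.T (fun x => H710.bet x • bf D x (a x) (fderiv ℝ ψ (tr (-k) x))) := by
    intro k _
    congr 1
    funext x
    rw [hp, bf_tr]
  rw [Finset.sum_congr rfl h10, ← H710.T_sum S s fun k _ => h9 k]
  unfold QQ
  congr 1
  funext x
  by_cases hx : x ∈ tsupport H710.bet
  · rw [h7 x hx, ← Finset.smul_sum]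
    congr 1
    ext u v
    simp only [sum_apply, bf_apply, Finset.mul_sum, Finset.sum_mul,
      Finset.sum_sub_distrib]
  · rw [image_eq_zero_of_notMem_tsupport hx]
    simp

theorem MIN_aux (j : Fin 4) : ∃ F : ℕ → R4 → ℝ, Mini S j F ∧ EL S F := by
  set A : Set ℝ := {e | ∃ G : R4 → ℝ, ContDiff ℝ ∞ G ∧ (∀ (k : Fin 4 → ℤ) x, G (tr k x) = G x + k j) ∧
    e = QQ S (fderiv ℝ G) (fderiv ℝ G)} with hA
  have hcont : ∀ G : R4 → ℝ, ContDiff ℝ ∞ G → Continuous (fderiv ℝ G) := fun G hG =>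
    hG.continuous_fderiv (by simp)
  have hne : A.Nonempty := ⟨_, fun x => x j, contDiff_apply ℝ ℝ j, fun k x => by simp [tr], rfl⟩
  have hbd : BddBelow A := by
    refine ⟨0, ?_⟩
    rintro e ⟨G, hG, -, rfl⟩
    exact QQ_nonneg S (hcont G hG)
  set m := sInf A with hm
  have hmin : ∀ G : R4 → ℝ, ContDiff ℝ ∞ G → (∀ (k : Fin 4 → ℤ) x, G (tr k x) = G x + k j) →
      m ≤ QQ S (fderiv ℝ G) (fderiv ℝ G) := fun G hG hp => csInf_le hbd ⟨G, hG, hp, rfl⟩
  have hex : ∀ n : ℕ, ∃ G : R4 → ℝ, ContDiff ℝ ∞ G ∧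
      (∀ (k : Fin 4 → ℤ) x, G (tr k x) = G x + k j) ∧
      QQ S (fderiv ℝ G) (fderiv ℝ G) < m + 1 / ((n : ℝ) + 1) ^ 2 := by
    intro n
    obtain ⟨e, ⟨G, hG, hp, rfl⟩, he⟩ := exists_lt_of_csInf_lt hne
      (show m < m + 1 / ((n : ℝ) + 1) ^ 2 by
        have : 0 < 1 / ((n : ℝ) + 1) ^ 2 := by positivity
        linarith)
    exact ⟨G, hG, hp, he⟩
  choose F hF hFp hFe using hex
  have hdp : ∀ n k x, fderiv ℝ (F n) (tr k x) = fderiv ℝ (F n) x := by
    intro n k x
    rw [← fderiv_comp_tr]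
    have : (fun y => F n (tr k y)) = fun y => F n y + k j := funext fun y => hFp n k y
    rw [this, fderiv_add_const]
  refine ⟨F, ⟨hF, hFp, ?_⟩, ?_⟩
  · -- Cauchy
    intro χ hχ hχs hχ0 η hη
    obtain ⟨C, hC, hle⟩ := loc_le S hχ hχs hχ0
    have hlim : Tendsto (fun n : ℕ => 1 / ((n : ℝ) + 1) ^ 2) atTop (𝓝 0) := by
      have h1 := tendsto_one_div_add_atTop_nhds_zero_nat (𝕜 := ℝ)
      have h2 := h1.mul h1
      rw [mul_zero] at h2
      refine h2.congr fun n => ?_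
      field_simp
    have hlim2 : Tendsto (fun n : ℕ => 4 * C * (1 / ((n : ℝ) + 1) ^ 2)) atTop (𝓝 0) := by
      simpa using hlim.const_mul (4 * C)
    obtain ⟨n₀, hn₀⟩ := eventually_atTop.1 (hlim2.eventually (gt_mem_nhds hη))
    have hmono : ∀ n ≥ n₀, 1 / ((n : ℝ) + 1) ^ 2 ≤ 1 / ((n₀ : ℝ) + 1) ^ 2 := by
      intro n hn
      have : (n₀ : ℝ) ≤ n := by exact_mod_cast hn
      gcongr
    refine ⟨n₀, fun n hn m' hm' => ?_⟩
    have h1 := hle (fun x => fderiv ℝ (F n) x - fderiv ℝ (F m') x)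
      ((hcont _ (hF n)).sub (hcont _ (hF m'))) (fun k x => by rw [hdp, hdp])
    refine h1.trans ?_
    rw [paral S (hcont _ (hF n)) (hcont _ (hF m'))]
    have h2 : m ≤ QQ S (fun x => (1 / 2 : ℝ) • (fderiv ℝ (F n) x + fderiv ℝ (F m') x))
        (fun x => (1 / 2 : ℝ) • (fderiv ℝ (F n) x + fderiv ℝ (F m') x)) := by
      have hG : ContDiff ℝ ∞ fun x => (1 / 2 : ℝ) * (F n x + F m' x) :=
        contDiff_const.mul ((hF n).add (hF m'))
      have h3 : fderiv ℝ (fun x => (1 / 2 : ℝ) * (F n x + F m' x)) =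
          fun x => (1 / 2 : ℝ) • (fderiv ℝ (F n) x + fderiv ℝ (F m') x) := by
        funext x
        have hd1 : DifferentiableAt ℝ (F n) x := (hF n).differentiable (by simp) x
        have hd2 : DifferentiableAt ℝ (F m') x := (hF m').differentiable (by simp) x
        rw [fderiv_const_mul (hd1.fun_add hd2), fderiv_fun_add hd1 hd2]
      have h4 := hmin _ hG (fun k x => by rw [hFp, hFp]; ring)
      rw [h3] at h4
      exact h4
    have h3 := hFe n
    have h4 := hFe m'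
    have h5 := hmono n hn
    have h6 := hmono m' hm'
    have h7 := hn₀ n₀ le_rfl
    have h8 : C * (2 * QQ S (fderiv ℝ (F n)) (fderiv ℝ (F n)) +
        2 * QQ S (fderiv ℝ (F m')) (fderiv ℝ (F m')) -
        4 * QQ S (fun x => (1 / 2 : ℝ) • (fderiv ℝ (F n) x + fderiv ℝ (F m') x))
        (fun x => (1 / 2 : ℝ) • (fderiv ℝ (F n) x + fderiv ℝ (F m') x))) ≤
        C * (4 * (1 / ((n₀ : ℝ) + 1) ^ 2)) := by
      apply mul_le_mul_of_nonneg_left _ hC
      linarith
    linarith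
  · -- Euler-Lagrange
    intro ψ hψ hψs
    set Ψ := peri ψ with hΨ
    have hΨs : ContDiff ℝ ∞ Ψ := peri_smooth hψ hψs
    have hΨc : Continuous (fderiv ℝ Ψ) := hcont _ hΨs
    have h1 : ∀ n, S.T (fun x => bf D x (fderiv ℝ (F n) x) (fderiv ℝ ψ x)) =
        QQ S (fderiv ℝ (F n)) (fderiv ℝ Ψ) := fun n =>
      test_eq S (hcont _ (hF n)) (hdp n) hψ hψs
    set E := QQ S (fderiv ℝ Ψ) (fderiv ℝ Ψ) with hE
    have h2 : ∀ (n : ℕ) (t : ℝ), 0 ≤ 1 / ((n : ℝ) + 1) ^ 2 +
        2 * t * QQ S (fderiv ℝ (F n)) (fderiv ℝ Ψ) + t ^ 2 * E := by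
      intro n t
      have hG : ContDiff ℝ ∞ fun x => F n x + t * Ψ x := (hF n).add (contDiff_const.mul hΨs)
      have h3 : fderiv ℝ (fun x => F n x + t * Ψ x) = fun x => fderiv ℝ (F n) x + t • fderiv ℝ Ψ x := by
        funext x
        have hd1 : DifferentiableAt ℝ (F n) x := (hF n).differentiable (by simp) x
        have hd2 : DifferentiableAt ℝ Ψ x := hΨs.differentiable (by simp) x
        rw [fderiv_fun_add hd1 (hd2.const_mul t), fderiv_const_mul hd2]
      have h4 := hmin _ hG (fun k x => by rw [hFp, hΨ, peri_per]; ring)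
      rw [h3, QQ_expand S (hcont _ (hF n)) hΨc] at h4
      linarith [hFe n]
    have h3 : ∀ n : ℕ, |QQ S (fderiv ℝ (F n)) (fderiv ℝ Ψ)| ≤ (1 + E) * (1 / ((n : ℝ) + 1)) := by
      intro n
      have hp : (0 : ℝ) < (n : ℝ) + 1 := by positivity
      have hE0 : 0 ≤ E := QQ_nonneg S hΨc
      have h4 := h2 n (1 / ((n : ℝ) + 1))
      have h5 := h2 n (-(1 / ((n : ℝ) + 1)))
      set q := QQ S (fderiv ℝ (F n)) (fderiv ℝ Ψ)
      set τ := 1 / ((n : ℝ) + 1) with hτ
      have hτ0 : 0 < τ := by positivity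
      have hτ2 : 1 / ((n : ℝ) + 1) ^ 2 = τ ^ 2 := by rw [hτ]; field_simp
      rw [hτ2] at h4 h5
      have h6 : 0 ≤ τ * (τ + 2 * q + τ * E) := by nlinarith
      have h7 : 0 ≤ τ * (τ - 2 * q + τ * E) := by nlinarith
      have h8 : 0 ≤ τ + 2 * q + τ * E := nonneg_of_mul_nonneg_right h6 hτ0
      have h9 : 0 ≤ τ - 2 * q + τ * E := nonneg_of_mul_nonneg_right h7 hτ0
      rw [abs_le]
      constructor <;> nlinarith
    have h4 : Tendsto (fun n : ℕ => (1 + E) * (1 / ((n : ℝ) + 1))) atTop (𝓝 0) := by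
      simpa using (tendsto_one_div_add_atTop_nhds_zero_nat (𝕜 := ℝ)).const_mul (1 + E)
    simp_rw [h1]
    exact squeeze_zero_norm (fun n => by rw [Real.norm_eq_abs]; exact h3 n) h4

end

/-- `MIN` -/
theorem MIN : MIN_statement := by
  intro D S
  choose F hF using fun j => MIN_aux S j
  exact ⟨F, hF⟩

end Vale.Agent.P247.H690.HD
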