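import Vale.Agent.P247.H574.Sta3

/-!
# P247, stage 2, layer C: HODGE, statements

A holomorphic one-form on the singular curve `S.supp`, nowhere identically zero: limits of
minimising sequences of the Dirichlet energy in the classes `dx j`.

* `WEYL`, `GEN` : helper306
* `H3`, `RECENTER`, `REPAR` : helper821
* `MIN`, `LIMS`, `HODGEX` (assembly) : helper690
-/

open scoped ContDiff Topology
open Set MeasureTheory Filter Metric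

noncomputable section

namespace Vale.Agent.P247.H690.HD

open Vale.Agent.P247.H74 Vale.Agent.P247.H574

/-- `bf (u, J u) = a u * c u + a (J u) * c (J u)` -/
def bf (D : Data) (x : R4) (a c : R4 →L[ℝ] ℝ) : F2 :=
  (a.comp (D.J x)).smulRight c - c.smulRight (a.comp (D.J x))

theorem bf_apply (D : Data) (x : R4) (a c : R4 →L[ℝ] ℝ) (u v : R4) :
    bf D x a c u v = a (D.J x u) * c v - c u * a (D.J x v) := rfl

/-- `qf (u, J u) = a u ^ 2 + a (J u) ^ 2` -/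
def qf (D : Data) (x : R4) (a : R4 →L[ℝ] ℝ) : F2 := bf D x a a

/-- `∂ g` -/
def dz (g : ℂ → ℝ) (z : ℂ) : ℂ :=
  (((fderiv ℝ g z 1 : ℝ) : ℂ) - Complex.I * ((fderiv ℝ g z Complex.I : ℝ) : ℂ)) / 2

/-- a minimising sequence in the class `dx j` (first half: Cauchy) -/
structure Mini {D : Data} (S : ICur D) (j : Fin 4) (F : ℕ → R4 → ℝ) : Prop where
  smooth : ∀ n, ContDiff ℝ ∞ (F n)
  per : ∀ n (k : Fin 4 → ℤ) x, F n (tr k x) = F n x + k j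
  cau : ∀ χ : R4 → ℝ, Continuous χ → HasCompactSupport χ → (∀ x, 0 ≤ χ x) → ∀ η > 0, ∃ n₀,
    ∀ n ≥ n₀, ∀ m ≥ n₀,
      S.T (fun x => χ x • qf D x (fderiv ℝ (F n) x - fderiv ℝ (F m) x)) ≤ η

/-- the Euler-Lagrange equation in the limit -/
def EL {D : Data} (S : ICur D) (F : ℕ → R4 → ℝ) : Prop :=
  ∀ ψ : R4 → ℝ, ContDiff ℝ ∞ ψ → HasCompactSupport ψ →
    Tendsto (fun n => S.T (fun x => bf D x (fderiv ℝ (F n) x) (fderiv ℝ ψ x))) atTop (𝓝 0)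

/-- `MIN` -/
def MIN_statement : Prop := ∀ (D : Data) (S : ICur D), ∃ F : Fin 4 → ℕ → R4 → ℝ,
  ∀ j, Mini S j (F j) ∧ EL S (F j)

/-- the differentials `∂ (F n ∘ u)` converge in `L²` on the disc of radius `r` to the
holomorphic function `h` -/
structure Lim (F : ℕ → R4 → ℝ) (u : ℂ → R4) (r : ℝ) (h : ℂ → ℂ) : Prop where
  hol : DifferentiableOn ℂ h (ball 0 r)
  lim : Tendsto (fun n => ∫ z in ball (0 : ℂ) r, ‖dz (F n ∘ u) z - h z‖ ^ 2) atTop (𝓝 0)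
  int : IntegrableOn (fun z => ‖h z‖ ^ 2) (ball 0 r)

/-- the data of `LocStr` at `x` -/
structure LS1 {D : Data} (S : ICur D) (x : R4) (N : ℕ) (u : Fin N → ℂ → R4) (k : Fin N → ℕ)
    (ε : ℝ) : Prop where
  brs : Brs D S.supp x N u ε
  one : ∀ l, 1 ≤ k l
  val : ∀ φ, CF φ → tsupport φ ⊆ ball x ε → S.T φ = ∑ l, (k l : ℝ) * brI (u l) φ

/-- limits exist on all branches given by `LocStr` -/
def Lims {D : Data} (S : ICur D) (F : Fin 4 → ℕ → R4 → ℝ) : Prop :=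
  ∀ x ∈ S.supp, ∀ (N : ℕ) (u : Fin N → ℂ → R4) (k : Fin N → ℕ) (ε : ℝ), LS1 S x N u k ε →
    ∀ l, ∃ r > 0, r ≤ 1 ∧ ∃ h : Fin 4 → ℂ → ℂ, ∀ j, Lim (F j) (u l) r (h j)

/-- `WEYL` -/
def WEYL_statement : Prop := ∀ (r : ℝ) (g : ℂ → ℂ), 0 < r →
  AEStronglyMeasurable g (volume.restrict (ball 0 r)) →
  IntegrableOn (fun z => ‖g z‖ ^ 2) (ball 0 r) →
  (∀ ψ : ℂ → ℂ, ContDiff ℝ ∞ ψ → HasCompactSupport ψ → tsupport ψ ⊆ ball 0 r \ {0} →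
    ∫ z in ball (0 : ℂ) r, g z * dbar ψ z = 0) →
  ∃ h : ℂ → ℂ, DifferentiableOn ℂ h (ball 0 r) ∧ ∀ᵐ z ∂volume.restrict (ball (0 : ℂ) r), g z = h z

/-- `LIMS` -/
def LIMS_statement : Prop := WEYL_statement → ∀ (D : Data) (S : ICur D)
  (F : Fin 4 → ℕ → R4 → ℝ), (∀ j, Mini S j (F j) ∧ EL S (F j)) → Lims S F

/-- `H3`: the four limits do not vanish simultaneously on a branch. -/
def H3_statement : Prop := ∀ (D : Data) (S : ICur D) (F : Fin 4 → ℕ → R4 → ℝ),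
  (∀ x ∈ S.supp, LocStr S x) → (∀ j, Mini S j (F j)) → Lims S F →
  ∀ x ∈ S.supp, ∀ (N : ℕ) (u : Fin N → ℂ → R4) (k : Fin N → ℕ) (ε : ℝ), LS1 S x N u k ε →
    ∀ l, ∀ r > 0, r ≤ 1 → ∀ h : Fin 4 → ℂ → ℂ, (∀ j, Lim (F j) (u l) r (h j)) →
      ∃ j, ∃ z ∈ ball (0 : ℂ) r, h j z ≠ 0

/-- `GEN` -/
def GEN_statement : Prop := ∀ (p : ℕ → Submodule ℂ (Fin 4 → ℂ)), (∀ i, p i ≠ ⊤) →
  ∃ c : Fin 4 → ℂ, ∀ i, c ∉ p i

/-- `RECENTER` -/
def RECENTER_statement : Prop := ∀ (D : Data) (K : Set R4) (x : R4) (N : ℕ)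
  (u : Fin N → ℂ → R4) (ε : ℝ), Brs D K x N u ε → ∀ l, ∃ r₀ > 0, ∀ z ∈ ball (0 : ℂ) r₀, z ≠ 0 →
    fderiv ℝ (u l) z 1 ≠ 0 ∧ ∃ s₀ > 0, ∀ s : ℝ, 0 < s → s ≤ s₀ → ∃ ε',
      Brs D K (u l z) 1 (fun _ w => u l (z + (s : ℂ) * w)) ε'

/-- `REPAR` -/
def REPAR_statement : Prop := ∀ (D : Data) (K : Set R4) (x : R4) (N N' : ℕ)
  (u : Fin N → ℂ → R4) (u' : Fin N' → ℂ → R4) (ε ε' : ℝ), Brs D K x N u ε → Brs D K x N' u' ε' →
    N = N' ∧ ∀ l, ∃ l', ∃ r > 0, ∃ φ : ℂ → ℂ, DifferentiableOn ℂ φ (ball 0 r) ∧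
      InjOn φ (ball 0 r) ∧ φ 0 = 0 ∧ (∀ z ∈ ball (0 : ℂ) r, φ z ∈ ball (0 : ℂ) 1) ∧
      ∀ z ∈ ball (0 : ℂ) r, u l z = u' l' (φ z)

/-- `HODGEX`: assembly -/
def HODGEX_statement : Prop := MIN_statement → WEYL_statement → LIMS_statement → H3_statement →
  GEN_statement → RECENTER_statement → REPAR_statement → HODGE_statement

end Vale.Agent.P247.H690.HD
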